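import Mathlib

namespace Vale.Agent.P037

open Finset

variable {n k : ℕ}

/-- An ordered copy of `H` in `A`: increasing rows `r` and increasing columns `c`. -/
def IsCopy (H : Fin k → Fin k → Bool) (A : Fin n → Fin n → Bool)
    (r c : Fin k → Fin n) : Prop :=
  StrictMono r ∧ StrictMono c ∧ ∀ i j, A (r i) (c j) = H i j

/-- The number of ordered copies of `H` in `A`. -/
noncomputable def numCopies (H : Fin k → Fin k → Bool) (A : Fin n → Fin n → Bool) : ℕ :=
  Nat.card {p : (Fin k → Fin n) × (Fin k → Fin n) // IsCopy H A p.1 p.2}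

/-- `A` is `H`-free. -/
def IsFree (H : Fin k → Fin k → Bool) (A : Fin n → Fin n → Bool) : Prop :=
  ∀ r c, ¬ IsCopy H A r c

/-- `A` is `ε`-far from being `H`-free: every `H`-free matrix of the same size differs
from `A` in at least `ε * n ^ 2` entries. -/
def IsFar (H : Fin k → Fin k → Bool) (A : Fin n → Fin n → Bool) (ε : ℝ) : Prop :=
  ∀ B : Fin n → Fin n → Bool, IsFree H B →
    ε * (n : ℝ) ^ 2 ≤ ((univ.filter fun p : Fin n × Fin n => A p.1 p.2 ≠ B p.1 p.2).card : ℝ)

end Vale.Agent.P037
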