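import Mathlib

/-! Elementary uniform probability on finite types. -/

namespace Vale.Agent.P037

open Finset

variable {α β γ : Type*} [Fintype α] [Fintype β] [Fintype γ]

/-- The average of `f`. -/
noncomputable def avg (f : α → ℝ) : ℝ := (∑ a, f a) / Fintype.card α

open Classical in
/-- The probability of `p` under the uniform distribution. -/
noncomputable def pr (p : α → Prop) : ℝ := avg fun a => if p a then (1 : ℝ) else 0

lemma pr_eq_card (p : α → Prop) [DecidablePred p] :
    pr p = ((univ.filter p).card : ℝ) / Fintype.card α := by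
  unfold pr avg
  congr 1
  rw [Finset.card_filter]
  push_cast
  refine Finset.sum_congr rfl fun a _ => ?_
  by_cases h : p a <;> simp [h]

lemma avg_nonneg {f : α → ℝ} (h : ∀ a, 0 ≤ f a) : 0 ≤ avg f := by
  unfold avg
  exact div_nonneg (Finset.sum_nonneg fun a _ => h a) (by positivity)

lemma pr_nonneg (p : α → Prop) : 0 ≤ pr p := by
  refine avg_nonneg fun a => ?_
  by_cases h : p a <;> simp [h]

lemma avg_mono {f g : α → ℝ} (h : ∀ a, f a ≤ g a) : avg f ≤ avg g := by
  unfold avg
  gcongr with a
  exact h a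

lemma avg_add (f g : α → ℝ) : avg (fun a => f a + g a) = avg f + avg g := by
  simp [avg, Finset.sum_add_distrib, add_div]

lemma avg_mul_left (c : ℝ) (f : α → ℝ) : avg (fun a => c * f a) = c * avg f := by
  simp [avg, ← Finset.mul_sum, mul_div_assoc]

lemma avg_const [Nonempty α] (c : ℝ) : avg (fun _ : α => c) = c := by
  simp [avg]

lemma avg_prod (f : α × β → ℝ) : avg f = avg fun a => avg fun b => f (a, b) := by
  unfold avg
  rw [Fintype.sum_prod_type, Fintype.card_prod, Nat.cast_mul, ← Finset.sum_div, div_div,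
    mul_comm (Fintype.card α : ℝ)]

lemma avg_swap (f : α → β → ℝ) :
    (avg fun a => avg fun b => f a b) = avg fun b => avg fun a => f a b := by
  unfold avg
  rw [← Finset.sum_div, ← Finset.sum_div, Finset.sum_comm, div_right_comm]

lemma exists_le_avg [Nonempty α] (f : α → ℝ) : ∃ a, f a ≤ avg f := by
  have h := avg_const (α := α) (avg f)
  by_contra hh
  push Not at hh
  have hpos : (0 : ℝ) < Fintype.card α := by
    exact_mod_cast Fintype.card_pos
  have : avg f < avg f := by
    calc avg f = avg (fun _ : α => avg f) := h.symm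
      _ < avg f := by
        show (∑ _a : α, avg f) / (Fintype.card α : ℝ) < (∑ a, f a) / (Fintype.card α : ℝ)
        gcongr with a
        · exact Finset.univ_nonempty
        · exact hh a
  exact lt_irrefl _ this

lemma pr_mono {p q : α → Prop} (h : ∀ a, p a → q a) : pr p ≤ pr q := by
  refine avg_mono fun a => ?_
  by_cases hp : p a
  · simp [hp, h a hp]
  · by_cases hq : q a <;> simp [hp, hq]

lemma pr_or (p q : α → Prop) : pr (fun a => p a ∨ q a) ≤ pr p + pr q := by
  unfold pr
  rw [← avg_add]
  refine avg_mono fun a => ?_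
  by_cases hp : p a <;> by_cases hq : q a <;> simp [hp, hq]

lemma pr_exists_finset {ι : Type*} (s : Finset ι) (p : ι → α → Prop) :
    pr (fun a => ∃ i ∈ s, p i a) ≤ ∑ i ∈ s, pr (p i) := by
  classical
  unfold pr avg
  rw [← Finset.sum_div, Finset.sum_comm]
  gcongr with a
  beta_reduce
  by_cases h : ∃ i ∈ s, p i a
  · obtain ⟨i, hi, hpi⟩ := h
    rw [if_pos ⟨i, hi, hpi⟩]
    calc (1 : ℝ) = if p i a then 1 else 0 := by simp [hpi]
      _ ≤ ∑ j ∈ s, if p j a then (1 : ℝ) else 0 :=
        Finset.single_le_sum (f := fun j => if p j a then (1 : ℝ) else 0)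
          (fun j _ => by by_cases hj : p j a <;> simp [hj]) hi
  · rw [if_neg h]
    exact Finset.sum_nonneg fun j _ => by by_cases hj : p j a <;> simp [hj]

lemma exists_not_of_pr_lt_one [Nonempty α] {p : α → Prop} (h : pr p < 1) : ∃ a, ¬ p a := by
  classical
  by_contra hh
  push Not at hh
  have : pr p = avg (fun _ : α => (1 : ℝ)) := by
    unfold pr
    congr 1
    funext a
    simp [hh a]
  rw [this, avg_const] at h
  exact lt_irrefl _ h

/-- Independent uniform samples miss a set of density at least `θ` with small probability. -/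
lemma pr_miss {n q : ℕ} (X : Finset (Fin n)) :
    pr (fun s : Fin q → Fin n => ∀ i, s i ∉ X) = (1 - (X.card : ℝ) / n) ^ q ∨ n = 0 := by
  rcases Nat.eq_zero_or_pos n with h | h
  · exact Or.inr h
  left
  classical
  rw [pr_eq_card]
  have : (univ.filter fun s : Fin q → Fin n => ∀ i, s i ∉ X) = Fintype.piFinset fun _ => Xᶜ := by
    ext s; simp
  rw [this, Fintype.card_piFinset_const, Fintype.card_fun, Fintype.card_fin, Fintype.card_fin,
    Finset.card_compl, Fintype.card_fin]
  push_cast [Nat.cast_sub (card_finset_fin_le X)]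
  rw [← div_pow]
  congr 1
  field_simp

lemma pr_miss_le {n q : ℕ} (hn : 0 < n) (X : Finset (Fin n)) {θ : ℝ}
    (hθ : θ * n ≤ X.card) :
    pr (fun s : Fin q → Fin n => ∀ i, s i ∉ X) ≤ (1 - θ) ^ q := by
  rcases pr_miss (q := q) X with h | h
  · rw [h]
    have hn' : (0 : ℝ) < n := by exact_mod_cast hn
    apply pow_le_pow_left₀
    · rw [sub_nonneg, div_le_one hn']
      exact_mod_cast card_finset_fin_le X
    · have : θ ≤ (X.card : ℝ) / n := (le_div_iff₀ hn').2 hθ
      linarith
  · omega

/-- Exchangeability: if a sample of size `p + 1` rarely sees more than `M` values of `τ`,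
then some `p` values of `τ` cover almost everything. -/
lemma exists_cover {δ : Type*} [DecidableEq δ] {n p M : ℕ} (hn : 0 < n) (τ : Fin n → δ) :
    ∃ Z : Finset δ, Z.card ≤ p ∧
      ((univ.filter fun x => τ x ∉ Z).card : ℝ) ≤
        ((M : ℝ) / (p + 1) +
          pr (fun s : Fin (p + 1) → Fin n => M < (univ.image (τ ∘ s)).card)) * n := by
  classical
  have : Nonempty (Fin n) := ⟨⟨0, hn⟩⟩
  set g := pr (fun s : Fin (p + 1) → Fin n => M < (univ.image (τ ∘ s)).card) with hg
  let U : Fin (p + 1) → (Fin (p + 1) → Fin n) → ℝ := fun i s =>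
    if ∀ j, j ≠ i → τ (s j) ≠ τ (s i) then 1 else 0
  have hsum : ∀ s, ∑ i, U i s ≤ M + (p + 1) *
      (if M < (univ.image (τ ∘ s)).card then (1 : ℝ) else 0) := by
    intro s
    have h1 : ∑ i, U i s =
        ((univ.filter fun i => ∀ j, j ≠ i → τ (s j) ≠ τ (s i)).card : ℝ) := by
      rw [Finset.card_filter]; push_cast; rfl
    rw [h1]
    have h2 : (univ.filter fun i => ∀ j, j ≠ i → τ (s j) ≠ τ (s i)).card ≤
        (univ.image (τ ∘ s)).card := by
      refine Finset.card_le_card_of_injOn (τ ∘ s)
        (fun i _ => Finset.mem_coe.2 (Finset.mem_image_of_mem _ (mem_univ i))) ?_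
      intro i hi j hj hij
      simp at hi hj
      by_contra hne
      exact hj i hne hij
    by_cases hM : M < (univ.image (τ ∘ s)).card
    · rw [if_pos hM, mul_one]
      have h3 : (univ.filter fun i => ∀ j, j ≠ i → τ (s j) ≠ τ (s i)).card ≤ p + 1 := by
        simpa using Finset.card_le_univ (univ.filter fun i : Fin (p + 1) =>
          ∀ j, j ≠ i → τ (s j) ≠ τ (s i))
      have : ((univ.filter fun i => ∀ j, j ≠ i → τ (s j) ≠ τ (s i)).card : ℝ) ≤ (p : ℝ) + 1 := by
        exact_mod_cast h3
      linarith [(Nat.cast_nonneg M : (0 : ℝ) ≤ M)]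
    · rw [if_neg hM, mul_zero, add_zero]
      exact_mod_cast h2.trans (not_lt.1 hM)
  let c : (Fin p → Fin n) → ℝ := fun t =>
    avg fun x : Fin n => if ∀ j, τ (t j) ≠ τ x then 1 else 0
  have hU : ∀ i, avg (U i) = avg c := by
    intro i
    have e := (Fin.insertNthEquiv (fun _ => Fin n) i)
    have h1 : avg (U i) = avg fun z : Fin n × (Fin p → Fin n) =>
        U i (Fin.insertNthEquiv (fun _ => Fin n) i z) := by
      unfold avg
      rw [Fintype.card_congr (Fin.insertNthEquiv (fun _ => Fin n) i),
        Equiv.sum_comp (Fin.insertNthEquiv (fun _ => Fin n) i) (U i)]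
    rw [h1, avg_prod]
    show _ = avg fun t : Fin p → Fin n => avg fun x : Fin n => if ∀ j, τ (t j) ≠ τ x then (1:ℝ) else 0
    rw [avg_swap]
    congr 1; funext t; congr 1; funext x
    refine if_congr ?_ rfl rfl
    constructor
    · intro h j
      simpa using h (i.succAbove j) (Fin.succAbove_ne i j)
    · intro h j hj
      obtain ⟨j', rfl⟩ := Fin.exists_succAbove_eq hj
      simpa using h j'
  have hc : avg c ≤ (M : ℝ) / (p + 1) + g := by
    have h1 : avg (fun s => ∑ i, U i s) = (p + 1) * avg c := by
      unfold avg at hU ⊢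
      rw [Finset.sum_comm, Finset.sum_div, Finset.sum_congr rfl fun i _ => hU i]
      simp
    have h2 : avg (fun s => ∑ i, U i s) ≤ M + (p + 1) * g := by
      refine (avg_mono hsum).trans ?_
      rw [avg_add, avg_mul_left, avg_const]
      apply le_of_eq
      unfold pr at hg
      rw [hg]
      congr! 4 with x
      simp
    rw [h1] at h2
    have hp : (0 : ℝ) < p + 1 := by positivity
    rw [div_add' _ _ _ hp.ne', le_div_iff₀ hp]
    linarith
  obtain ⟨t, ht⟩ := exists_le_avg c
  refine ⟨univ.image (τ ∘ t), ?_, ?_⟩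
  · exact Finset.card_image_le.trans (by simp)
  · have h1 : (univ.filter fun x => τ x ∉ univ.image (τ ∘ t)) =
        univ.filter fun x => ∀ j, τ (t j) ≠ τ x := by
      ext x; simp
    have h2 : c t * n = ((univ.filter fun x => ∀ j, τ (t j) ≠ τ x).card : ℝ) := by
      simp only [c, avg, Fintype.card_fin]
      rw [Finset.card_filter]
      push_cast
      have : (n : ℝ) ≠ 0 := by exact_mod_cast hn.ne'
      field_simp
    rw [h1, ← h2]
    have := ht.trans hc
    gcongr

end Vale.Agent.P037
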