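import Mathlib

/-! Submatrices without an ordered copy of a fixed pattern have bounded shatter function. -/

namespace Vale.Agent.P037

open Finset

variable {n k : ℕ}

/-- The rows in `S` and the columns in `T` span no ordered copy of `H`. -/
def NoCopy (H : Fin k → Fin k → Bool) (A : Fin n → Fin n → Bool) (S T : Finset (Fin n)) :
    Prop :=
  ∀ r c : Fin k → Fin n, StrictMono r → StrictMono c → (∀ i, r i ∈ S) → (∀ j, c j ∈ T) →
    ¬ ∀ i j, A (r i) (c j) = H i j

lemma NoCopy.mono {H : Fin k → Fin k → Bool} {A : Fin n → Fin n → Bool}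
    {S T S' T' : Finset (Fin n)} (h : NoCopy H A S T) (hS : S' ⊆ S) (hT : T' ⊆ T) :
    NoCopy H A S' T' :=
  fun r c hr hc hrS hcT => h r c hr hc (fun i => hS (hrS i)) fun j => hT (hcT j)

lemma NoCopy.swap {H : Fin k → Fin k → Bool} {A : Fin n → Fin n → Bool}
    {S T : Finset (Fin n)} (h : NoCopy H A S T) :
    NoCopy (fun i j => H j i) (fun x y => A y x) T S :=
  fun r c hr hc hrS hcT hA => h c r hc hr hcT hrS fun i j => hA j i

/-- The type of the row `s` on the columns `T`. -/
def rowType (A : Fin n → Fin n → Bool) (T : Finset (Fin n)) (s : Fin n) : Finset (Fin n) :=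
  T.filter fun t => A s t = true

lemma eq_of_rowType_eq {A : Fin n → Fin n → Bool} {T : Finset (Fin n)} {s s' : Fin n}
    (h : rowType A T s = rowType A T s') {t : Fin n} (ht : t ∈ T) : A s t = A s' t := by
  have := congrArg (fun F : Finset (Fin n) => decide (t ∈ F)) h
  simpa [rowType, ht] using this

lemma exists_shatter_bound (k : ℕ) (hk : 1 ≤ k) (H : Fin k → Fin k → Bool) :
    ∃ d : ℕ, ∀ (n : ℕ) (A : Fin n → Fin n → Bool) (S T : Finset (Fin n)),
      NoCopy H A S T → (S.image (rowType A T)).card ≤ (T.card + 1) ^ d := by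
  classical
  obtain ⟨b, hb⟩ : ∃ b : ℕ, 2 * k * (2 ^ k - 1) ^ b < (2 ^ k) ^ b := by
    have hP : (0 : ℝ) < 2 ^ k := by positivity
    have hk0 : (0 : ℝ) < k := by exact_mod_cast hk
    obtain ⟨b, hb⟩ := exists_pow_lt_of_lt_one (show (0 : ℝ) < 1 / (2 * k) by positivity)
      (show ((2 : ℝ) ^ k - 1) / 2 ^ k < 1 by rw [div_lt_one hP]; linarith)
    refine ⟨b, ?_⟩
    rw [div_pow, div_lt_div_iff₀ (pow_pos hP b) (by positivity), one_mul] at hb
    have h1 : ((2 * k * (2 ^ k - 1) ^ b : ℕ) : ℝ) < (((2 ^ k) ^ b : ℕ) : ℝ) := by
      push_cast [Nat.cast_sub (Nat.one_le_two_pow (n := k))]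
      linarith
    exact_mod_cast h1
  set m := k * b with hm
  refine ⟨m * k, fun n A S T hfree => ?_⟩
  -- no set of `m * k` columns is shattered
  have key : ∀ C : Finset (Fin n), (S.image (rowType A T)).Shatters C → C.card < m * k := by
    intro C0 hC0
    by_contra hlt
    push Not at hlt
    obtain ⟨C, hCC, hcard⟩ := Finset.exists_subset_card_eq hlt
    have hC := hC0.mono_right hCC
    have hCT : C ⊆ T := by
      obtain ⟨u, hu, hsub⟩ := hC.exists_superset
      obtain ⟨s, _, rfl⟩ := Finset.mem_image.1 hu
      exact hsub.trans (Finset.filter_subset _ _)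
    let e := C.orderEmbOfFin hcard
    let col : Fin m → Fin k → Fin n := fun j i => e (finProdFinEquiv (j, i))
    have hcol_mono : ∀ j, StrictMono (col j) := by
      intro j i i' h
      apply e.strictMono
      rw [Fin.lt_def] at h ⊢
      simp only [finProdFinEquiv_apply_val]
      omega
    have hcol_mem : ∀ j i, col j i ∈ C := fun j i => C.orderEmbOfFin_mem hcard _
    have hwit : ∀ f : Fin m → Fin k → Bool, ∃ s ∈ S, ∀ j i, A s (col j i) = f j i := by
      intro f
      obtain ⟨u, hu, huf⟩ := hC (t := (univ.filter fun p : Fin m × Fin k => f p.1 p.2 = true).image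
        fun p => col p.1 p.2) (by
          intro x hx
          obtain ⟨p, _, rfl⟩ := Finset.mem_image.1 hx
          exact hcol_mem _ _)
      obtain ⟨s, hs, rfl⟩ := Finset.mem_image.1 hu
      refine ⟨s, hs, fun j i => ?_⟩
      have hiff : A s (col j i) = true ↔ f j i = true := by
        have h1 : col j i ∈ C ∩ rowType A T s ↔ A s (col j i) = true := by
          simp [rowType, hcol_mem, hCT (hcol_mem j i)]
        rw [← h1, huf, Finset.mem_image]
        constructor
        · rintro ⟨p, hp, hpe⟩
          have : p = (j, i) := finProdFinEquiv.injective (e.injective hpe)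
          subst this
          simpa using hp
        · exact fun h => ⟨(j, i), by simp [h], rfl⟩
      exact Bool.eq_iff_iff.2 hiff
    choose w hwS hw using hwit
    have hwinj : Function.Injective w := fun f g h => by
      funext j i; rw [← hw f j i, ← hw g j i, h]
    set N := ((2 : ℕ) ^ k) ^ m with hN
    let W := (univ : Finset (Fin m → Fin k → Bool)).image w
    have hW : W.card = N := by
      rw [Finset.card_image_of_injective _ hwinj]; simp [hN]
    let g := W.orderEmbOfFin hW
    have hg : ∀ a, ∃ f, w f = g a := fun a => by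
      obtain ⟨f, _, hf⟩ := Finset.mem_image.1 (W.orderEmbOfFin_mem hW a)
      exact ⟨f, hf⟩
    choose fa hfa using hg
    set s := N / k with hs
    -- in each block some chunk misses the required pattern
    have hmiss : ∀ j : Fin m, ∃ i : Fin k, ∀ a : Fin N,
        i.val * s ≤ a.val → a.val < (i.val + 1) * s → fa a j ≠ H i := by
      intro j
      by_contra hall
      push Not at hall
      choose ai ha1 ha2 ha3 using hall
      refine hfree (fun i => g (ai i)) (col j) ?_ (hcol_mono j) ?_ ?_ ?_
      · intro i i' h
        apply g.strictMono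
        have h' : i.val + 1 ≤ i'.val := h
        show (ai i).val < (ai i').val
        calc (ai i).val < (i.val + 1) * s := ha2 i
          _ ≤ i'.val * s := Nat.mul_le_mul_right s h'
          _ ≤ _ := ha1 i'
      · intro i; rw [← hfa]; exact hwS _
      · intro i; exact hCT (hcol_mem j i)
      · intro i i'
        rw [← hfa, hw, ha3]
    choose ι hι using hmiss
    have : Nonempty (Fin k) := ⟨⟨0, hk⟩⟩
    obtain ⟨i0, hi0⟩ := Fintype.exists_le_card_fiber_of_mul_le_card ι (n := b) (by simp [hm])
    obtain ⟨J, hJ, hJcard⟩ := Finset.exists_subset_card_eq hi0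
    let F : Finset (Fin m → Fin k → Bool) :=
      Fintype.piFinset fun j => if j ∈ J then univ.erase (H i0) else univ
    have hF : F.card = (2 ^ k - 1) ^ b * (2 ^ k) ^ (m - b) := by
      rw [Fintype.card_piFinset]
      simp only [apply_ite Finset.card, Finset.prod_ite, Finset.prod_const]
      have e1 : (univ.filter fun j => j ∈ J) = J := by ext; simp
      have e2 : (univ.filter fun j => ¬ j ∈ J) = Jᶜ := by ext; simp
      have e3 : (univ.erase (H i0)).card = 2 ^ k - 1 := by
        rw [Finset.card_erase_of_mem (mem_univ _)]; simp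
      have e4 : (univ : Finset (Fin k → Bool)).card = 2 ^ k := by simp
      rw [e1, e2, e3, e4, Finset.card_compl, hJcard, Fintype.card_fin]
    have hle : (i0.val + 1) * s ≤ N :=
      (Nat.mul_le_mul_right s i0.isLt).trans (Nat.mul_div_le N k)
    let emb : Fin s → Fin m → Fin k → Bool := fun a => fa ⟨i0.val * s + a.val, by
      have := a.isLt; rw [Nat.add_mul, one_mul] at hle; omega⟩
    have hsF : s ≤ F.card := by
      have h := Finset.card_le_card_of_injOn (s := (univ : Finset (Fin s))) (t := F) emb ?_ ?_
      · simpa using h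
      · intro a _
        simp only [F, Finset.mem_coe, Fintype.mem_piFinset]
        intro j
        by_cases hj : j ∈ J
        · rw [if_pos hj, Finset.mem_erase]
          refine ⟨?_, mem_univ _⟩
          have hij : ι j = i0 := by simpa using hJ hj
          have := hι j
          rw [hij] at this
          exact this _ (Nat.le_add_right _ _) (by
            simp only [Nat.add_mul, one_mul]; exact Nat.add_lt_add_left a.isLt _)
        · simp [if_neg hj]
      · intro a _ a' _ h
        have := congrArg w h
        simp only [emb, hfa] at this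
        have := congrArg Fin.val (g.injective this)
        simp at this
        exact Fin.ext this
    have hNb : N = (2 ^ k) ^ b * (2 ^ k) ^ (m - b) := by
      rw [← pow_add, hN]; congr 1
      have : b ≤ m := Nat.le_mul_of_pos_left b hk
      omega
    have hkN : k ≤ N := by
      rcases Nat.eq_zero_or_pos b with h0 | h0
      · simp [h0] at hb; omega
      · calc k ≤ 2 ^ k := k.lt_two_pow_self.le
          _ ≤ N := Nat.le_self_pow (by positivity) _
    have hs1 : 1 ≤ s := (Nat.one_le_div_iff hk).2 hkN
    have hlt2 : N < 2 * k * s := by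
      have h1 := Nat.div_add_mod N k
      have h2 := Nat.mod_lt N hk
      rw [← hs] at h1
      nlinarith
    have : 2 * k * s < N := by
      calc 2 * k * s ≤ 2 * k * ((2 ^ k - 1) ^ b * (2 ^ k) ^ (m - b)) :=
            Nat.mul_le_mul_left _ (hF ▸ hsF)
        _ = (2 * k * (2 ^ k - 1) ^ b) * (2 ^ k) ^ (m - b) := by ring
        _ < (2 ^ k) ^ b * (2 ^ k) ^ (m - b) := Nat.mul_lt_mul_of_pos_right hb (by positivity)
        _ = N := hNb.symm
    omega
  refine (Finset.card_le_card_shatterer _).trans ?_
  let enc : (Fin (m * k) → Option {x // x ∈ T}) → Finset (Fin n) := fun f =>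
    univ.filter fun x => ∃ i, ∃ h : x ∈ T, f i = some ⟨x, h⟩
  have hsub : (S.image (rowType A T)).shatterer ⊆ univ.image enc := by
    intro C hC
    rw [Finset.mem_shatterer] at hC
    have hlt := key C hC
    have hCT : C ⊆ T := by
      obtain ⟨u, hu, hsub⟩ := hC.exists_superset
      obtain ⟨s, _, rfl⟩ := Finset.mem_image.1 hu
      exact hsub.trans (Finset.filter_subset _ _)
    refine Finset.mem_image.2 ⟨fun i => if h : i.val < C.card then
      some ⟨C.orderEmbOfFin rfl ⟨i.val, h⟩, hCT (C.orderEmbOfFin_mem rfl _)⟩ else none,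
      mem_univ _, ?_⟩
    ext x
    simp only [enc, Finset.mem_filter, mem_univ, true_and]
    constructor
    · rintro ⟨i, hx, hi⟩
      split at hi
      · simp only [Option.some.injEq, Subtype.mk.injEq] at hi
        exact hi ▸ C.orderEmbOfFin_mem rfl _
      · simp at hi
    · intro hx
      obtain ⟨a, ha⟩ := (Set.ext_iff.1 (C.range_orderEmbOfFin rfl) x).2 hx
      exact ⟨⟨a.val, a.isLt.trans hlt⟩, hCT hx, by rw [dif_pos a.isLt]; simp [ha]⟩
  refine (Finset.card_le_card hsub).trans (Finset.card_image_le.trans ?_)
  simp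

end Vale.Agent.P037
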