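import Mathlib
import Vale.Agent.P037.Defs
import Vale.Agent.P037.Prob
import Vale.Agent.P037.Shatter

/-! A small random submatrix rarely contains a copy of `H`. -/

namespace Vale.Agent.P037

open Finset

variable {n k : ℕ}

/-- The set of values of a sample. -/
def valSet {q : ℕ} (s : Fin q → Fin n) : Finset (Fin n) := univ.image s

@[simp] lemma mem_valSet {q : ℕ} (s : Fin q → Fin n) {x : Fin n} :
    x ∈ valSet s ↔ ∃ i, s i = x := by
  simp [valSet]

lemma card_valSet {q : ℕ} (s : Fin q → Fin n) : (valSet s).card ≤ q :=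
  Finset.card_image_le.trans (by simp)

/-- Composition with an injection preserves the uniform distribution. -/
lemma avg_comp_injective {q : ℕ} (hn : 0 < n) (e : Fin k → Fin q) (he : Function.Injective e)
    (f : (Fin k → Fin n) → ℝ) : (avg fun s : Fin q → Fin n => f (s ∘ e)) = avg f := by
  classical
  have hk : k ≤ q := by simpa using Fintype.card_le_of_injective e he
  have hfib : ∀ r : Fin k → Fin n,
      (univ.filter fun s : Fin q → Fin n => s ∘ e = r).card = n ^ (q - k) := by
    intro r
    have h1 : (univ.filter fun s : Fin q → Fin n => s ∘ e = r) =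
        Fintype.piFinset fun i => univ.filter fun x => ∀ j, e j = i → x = r j := by
      ext s
      simp only [Finset.mem_filter, mem_univ, true_and, Fintype.mem_piFinset]
      constructor
      · intro h i j hj; subst hj; rw [← h]; rfl
      · intro h; funext j; exact h (e j) j rfl
    rw [h1, Fintype.card_piFinset]
    have h2 : ∀ i : Fin q, (univ.filter fun x : Fin n => ∀ j, e j = i → x = r j).card =
        if i ∈ univ.image e then 1 else n := by
      intro i
      by_cases h : i ∈ univ.image e
      · obtain ⟨j, _, rfl⟩ := Finset.mem_image.1 h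
        rw [if_pos h, Finset.card_eq_one]
        refine ⟨r j, ?_⟩
        ext x
        simp only [Finset.mem_filter, mem_univ, true_and, Finset.mem_singleton]
        exact ⟨fun hx => hx j rfl, fun hx j' hj' => by rw [he hj']; exact hx⟩
      · rw [if_neg h]
        simp only [Finset.mem_image, mem_univ, true_and, not_exists] at h
        rw [Finset.filter_true_of_mem fun x _ j hj => absurd hj (h j)]
        simp
    rw [Finset.prod_congr rfl fun i _ => h2 i, Finset.prod_ite, Finset.prod_const,
      Finset.prod_const, one_pow, one_mul]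
    congr 1
    have : (univ.filter fun i => ¬ i ∈ univ.image e) = (univ.image e)ᶜ := by ext; simp
    rw [this, Finset.card_compl, Finset.card_image_of_injective _ he]
    simp
  unfold avg
  rw [← Finset.sum_fiberwise_of_maps_to (t := (univ : Finset (Fin k → Fin n)))
    (g := fun s : Fin q → Fin n => s ∘ e) (fun s _ => mem_univ _)]
  rw [Finset.sum_congr rfl fun r _ => (Finset.sum_congr rfl
    (g := fun _ : Fin q → Fin n => f r) fun s hs => by rw [(Finset.mem_filter.1 hs).2])]
  simp only [Finset.sum_const, hfib, nsmul_eq_mul, ← Finset.mul_sum]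
  simp only [Fintype.card_fun, Fintype.card_fin]
  push_cast
  have hn' : (n : ℝ) ≠ 0 := by exact_mod_cast hn.ne'
  have hsplit : (n : ℝ) ^ q = (n : ℝ) ^ (q - k) * (n : ℝ) ^ k := by
    rw [← pow_add, Nat.sub_add_cancel hk]
  rw [hsplit]
  field_simp

lemma copy_prob (hn : 0 < n) (H : Fin k → Fin k → Bool) (A : Fin n → Fin n → Bool) (p q : ℕ) :
    (avg fun s : Fin p → Fin n => pr fun t : Fin q → Fin n =>
      ¬ NoCopy H A (valSet s) (valSet t)) ≤
      (p : ℝ) ^ k * (q : ℝ) ^ k * ((numCopies H A : ℝ) / (n : ℝ) ^ (2 * k)) := by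
  classical
  have h0 : (avg fun s : Fin p → Fin n => pr fun t : Fin q → Fin n =>
      ¬ NoCopy H A (valSet s) (valSet t)) =
      pr fun z : (Fin p → Fin n) × (Fin q → Fin n) => ¬ NoCopy H A (valSet z.1) (valSet z.2) := by
    unfold pr
    rw [avg_prod (α := Fin p → Fin n) (β := Fin q → Fin n)]
  rw [h0]
  set I := (univ.filter fun e : Fin k → Fin p => Function.Injective e) ×ˢ
    (univ.filter fun f : Fin k → Fin q => Function.Injective f) with hI
  refine (pr_mono (q := fun z => ∃ ef ∈ I, IsCopy H A (z.1 ∘ ef.1) (z.2 ∘ ef.2)) ?_).trans ?_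
  · intro z hz
    unfold NoCopy at hz
    push Not at hz
    obtain ⟨r, c, hr, hc, hrS, hcT, hA⟩ := hz
    choose e he using fun i => (mem_valSet _).1 (hrS i)
    choose f hf using fun i => (mem_valSet _).1 (hcT i)
    have he' : z.1 ∘ e = r := funext he
    have hf' : z.2 ∘ f = c := funext hf
    refine ⟨(e, f), ?_, by rw [he', hf']; exact ⟨hr, hc, hA⟩⟩
    simp only [hI, Finset.mem_product, Finset.mem_filter, mem_univ, true_and]
    exact ⟨fun a b h => hr.injective (by rw [← he a, ← he b, h]),
      fun a b h => hc.injective (by rw [← hf a, ← hf b, h])⟩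
  refine (pr_exists_finset I _).trans ?_
  have hN : pr (fun z : (Fin k → Fin n) × (Fin k → Fin n) => IsCopy H A z.1 z.2) =
      (numCopies H A : ℝ) / (n : ℝ) ^ (2 * k) := by
    rw [pr_eq_card, numCopies, Nat.card_eq_fintype_card, Fintype.card_subtype]
    simp [← pow_add, two_mul]
  have hone : ∀ ef ∈ I, pr (fun z : (Fin p → Fin n) × (Fin q → Fin n) =>
      IsCopy H A (z.1 ∘ ef.1) (z.2 ∘ ef.2)) = (numCopies H A : ℝ) / (n : ℝ) ^ (2 * k) := by
    intro ef hef
    simp only [hI, Finset.mem_product, Finset.mem_filter, mem_univ, true_and] at hef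
    rw [← hN]
    unfold pr
    rw [avg_prod (α := Fin p → Fin n), avg_prod (α := Fin k → Fin n)]
    rw [← avg_comp_injective hn ef.1 hef.1]
    congr 1; funext s
    rw [← avg_comp_injective hn ef.2 hef.2]
  rw [Finset.sum_congr rfl hone, Finset.sum_const, nsmul_eq_mul]
  gcongr
  rw [hI, Finset.card_product]
  push_cast
  gcongr
  · have := Finset.card_filter_le (univ : Finset (Fin k → Fin p)) fun e => Function.Injective e
    simpa using (Nat.cast_le (α := ℝ)).2 this
  · have := Finset.card_filter_le (univ : Finset (Fin k → Fin q)) fun e => Function.Injective e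
    simpa using (Nat.cast_le (α := ℝ)).2 this

end Vale.Agent.P037
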