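import Mathlib

/-! The `B`-ary interval tree on `Fin n` and critical levels of a set of leaves. -/

namespace Vale.Agent.P037

open Finset

/-- The index of the level-`ℓ` interval containing `x`. -/
def node (B n ℓ : ℕ) (x : Fin n) : ℕ := x.val * B ^ ℓ / n

lemma node_lt {B n : ℕ} (hB : 0 < B) (ℓ : ℕ) (x : Fin n) : node B n ℓ x < B ^ ℓ := by
  have hn : 0 < n := x.pos
  rw [node, Nat.div_lt_iff_lt_mul hn, mul_comm (B ^ ℓ)]
  exact Nat.mul_lt_mul_of_pos_right x.isLt (Nat.pow_pos hB)

lemma node_div {B n : ℕ} (hB : 0 < B) {ℓ b : ℕ} (h : ℓ ≤ b) (x : Fin n) :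
    node B n b x / B ^ (b - ℓ) = node B n ℓ x := by
  obtain ⟨c, rfl⟩ := Nat.exists_eq_add_of_le h
  rw [node, node, Nat.add_sub_cancel_left, Nat.div_div_eq_div_mul, pow_add, ← mul_assoc]
  exact Nat.mul_div_mul_right _ _ (Nat.pow_pos hB)

lemma node_mono {B n ℓ : ℕ} {x y : Fin n} (h : x ≤ y) : node B n ℓ x ≤ node B n ℓ y :=
  Nat.div_le_div_right (Nat.mul_le_mul_right _ h)

lemma node_zero {B n : ℕ} (x : Fin n) : node B n 0 x = 0 := by
  simp [node, Nat.div_eq_of_lt x.isLt]

/-- A level-`ℓ` interval contains at most `n / B ^ ℓ + 1` points. -/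
lemma card_node_fiber {B n : ℕ} (hB : 0 < B) (ℓ N : ℕ) :
    (univ.filter fun x : Fin n => node B n ℓ x = N).card ≤ n / B ^ ℓ + 1 := by
  set X := univ.filter fun x : Fin n => node B n ℓ x = N
  rcases X.eq_empty_or_nonempty with h | h
  · simp [h]
  set x0 := X.min' h
  have hmem : ∀ x ∈ X, x0.val ≤ x.val ∧ x.val < x0.val + (n / B ^ ℓ + 1) := by
    intro x hx
    refine ⟨X.min'_le x hx, ?_⟩
    have h1 : node B n ℓ x = N := by simpa [X] using hx
    have h0 : node B n ℓ x0 = N := by simpa [X] using X.min'_mem h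
    have hp : 0 < B ^ ℓ := Nat.pow_pos hB
    have hn : 0 < n := x.pos
    have a1 : x.val * B ^ ℓ < (N + 1) * n := by
      rw [← h1]; exact (Nat.div_lt_iff_lt_mul hn).1 (Nat.lt_succ_self _)
    have a2 : N * n ≤ x0.val * B ^ ℓ := by
      rw [← h0]; exact Nat.div_mul_le_self _ _
    by_contra hc
    push Not at hc
    have a3 : (x0.val + (n / B ^ ℓ + 1)) * B ^ ℓ ≤ x.val * B ^ ℓ := Nat.mul_le_mul_right _ hc
    have a4 : n < (n / B ^ ℓ + 1) * B ^ ℓ := Nat.lt_mul_of_div_lt (Nat.lt_succ_self _) hp
    nlinarith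
  calc X.card = (X.image Fin.val).card :=
        (Finset.card_image_of_injective _ Fin.val_injective).symm
    _ ≤ (Finset.Ico x0.val (x0.val + (n / B ^ ℓ + 1))).card := by
        refine Finset.card_le_card fun y hy => ?_
        obtain ⟨x, hx, rfl⟩ := Finset.mem_image.1 hy
        exact Finset.mem_Ico.2 (hmem x hx)
    _ = _ := by simp

/-- Level `ℓ` is critical for the leaf `v` with respect to the set `P` of leaves of depth `b`:
some child of the level-`ℓ` ancestor of `v` contains no leaf of `P`. -/
def Crit (B b : ℕ) (P : Finset ℕ) (ℓ v : ℕ) : Prop :=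
  ∃ j < B, ∀ w ∈ P, w / B ^ (b - ℓ - 1) ≠ v / B ^ (b - ℓ) * B + j

open Classical in
/-- The number of critical levels of `v`. -/
noncomputable def critCount (B b : ℕ) (P : Finset ℕ) (v : ℕ) : ℕ :=
  ((range b).filter fun ℓ => Crit B b P ℓ v).card

lemma card_many_crit (B : ℕ) (hB : 2 ≤ B) : ∀ (b : ℕ) (P : Finset ℕ), P ⊆ range (B ^ b) →
    ∀ D : ℕ, ((P.filter fun v => D ≤ critCount B b P v).card : ℝ) ≤
      (B : ℝ) ^ b * (1 - 1 / (B : ℝ)) ^ D := by
  classical
  intro b
  have hB0 : (0 : ℝ) < B := by exact_mod_cast (show 0 < B by omega)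
  have hq0 : (0 : ℝ) ≤ 1 - 1 / (B : ℝ) := by
    rw [sub_nonneg, div_le_one hB0]; exact_mod_cast (show 1 ≤ B by omega)
  have htriv : ∀ (b : ℕ) (P : Finset ℕ), P ⊆ range (B ^ b) → ∀ (p : ℕ → Prop) [DecidablePred p],
      ((P.filter p).card : ℝ) ≤ (B : ℝ) ^ b := by
    intro b P hP p _
    have := (Finset.card_le_card (Finset.filter_subset p P)).trans (Finset.card_le_card hP)
    rw [Finset.card_range] at this
    exact_mod_cast this
  induction b with
  | zero =>
    intro P hP D
    cases D with
    | zero => simpa using htriv 0 P hP (fun v => 0 ≤ critCount B 0 P v)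
    | succ D =>
      have : (P.filter fun v => D + 1 ≤ critCount B 0 P v) = ∅ := by
        simp [critCount]
      rw [this]
      simp only [Finset.card_empty, Nat.cast_zero]
      positivity
  | succ b ih =>
    intro P hP D
    cases D with
    | zero => simpa using htriv (b + 1) P hP (fun v => 0 ≤ critCount B (b + 1) P v)
    | succ D =>
      have hBb : 0 < B ^ b := Nat.pow_pos (by omega)
      have hPlt : ∀ v ∈ P, v < B ^ (b + 1) := fun v hv => Finset.mem_range.1 (hP hv)
      let Pc : ℕ → Finset ℕ := fun j => (P.filter fun w => w / B ^ b = j).image fun w => w % B ^ b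
      -- critical levels below the root are the critical levels inside the child
      have hstep : ∀ v ∈ P, ∀ ℓ < b,
          Crit B (b + 1) P (ℓ + 1) v → Crit B b (Pc (v / B ^ b)) ℓ (v % B ^ b) := by
        intro v _ ℓ hℓ hc
        obtain ⟨j, hj, hw⟩ := hc
        refine ⟨j, hj, fun w' hw' he => ?_⟩
        obtain ⟨w, hwmem, rfl⟩ := Finset.mem_image.1 hw'
        rw [Finset.mem_filter] at hwmem
        refine hw w hwmem.1 ?_
        have e1 : b + 1 - (ℓ + 1) = b - ℓ := by omega
        have e2 : b - ℓ - 1 + 1 = b - ℓ := by omega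
        rw [e1]
        set c := b - ℓ - 1
        have hbℓ : b = c + (ℓ + 1) := by omega
        have split : ∀ u : ℕ, u / B ^ c = (u / B ^ b) * B ^ (ℓ + 1) + (u % B ^ b) / B ^ c := by
          intro u
          conv_lhs => rw [← Nat.div_add_mod u (B ^ b)]
          rw [hbℓ, pow_add, mul_assoc, Nat.mul_add_div (Nat.pow_pos (by omega)),
            mul_comm (B ^ (ℓ + 1))]
        have split' : ∀ u : ℕ, u / B ^ (c + 1) = (u / B ^ b) * B ^ ℓ + (u % B ^ b) / B ^ (c + 1) := by
          intro u
          conv_lhs => rw [← Nat.div_add_mod u (B ^ b)]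
          have : b = (c + 1) + ℓ := by omega
          rw [this, pow_add, mul_assoc, Nat.mul_add_div (Nat.pow_pos (by omega)),
            mul_comm (B ^ ℓ)]
        have hc1 : b - ℓ = c + 1 := by omega
        rw [hc1] at he ⊢
        rw [split w, split' v, he, hwmem.2]
        ring
      have hcount : ∀ v ∈ P, critCount B (b + 1) P v ≤
          (if Crit B (b + 1) P 0 v then 1 else 0) +
            critCount B b (Pc (v / B ^ b)) (v % B ^ b) := by
        intro v hv
        unfold critCount
        rw [Finset.card_filter, Finset.card_filter, Finset.sum_range_succ', add_comm]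
        apply Nat.add_le_add_left
        refine Finset.sum_le_sum fun ℓ hℓ => ?_
        by_cases hc : Crit B (b + 1) P (ℓ + 1) v
        · rw [if_pos hc, if_pos (hstep v hv ℓ (Finset.mem_range.1 hℓ) hc)]
        · rw [if_neg hc]; exact Nat.zero_le _
      have hsplit : ∀ E : ℕ,
          ((P.filter fun v => E ≤ critCount B b (Pc (v / B ^ b)) (v % B ^ b)).card : ℝ) ≤
            ((P.image fun w => w / B ^ b).card : ℝ) * ((B : ℝ) ^ b * (1 - 1 / (B : ℝ)) ^ E) := by
        intro E
        rw [Finset.card_eq_sum_card_fiberwise (f := fun w => w / B ^ b)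
          (t := P.image fun w => w / B ^ b)
          (fun v hv => Finset.mem_coe.2 (Finset.mem_image_of_mem _
            (Finset.filter_subset _ _ hv)))]
        push_cast
        refine (Finset.sum_le_card_nsmul _ _ _ fun j _ => ?_).trans (le_of_eq (nsmul_eq_mul _ _))
        refine le_trans ?_ (ih (Pc j) (fun w hw => ?_) E)
        · have hinj := Finset.card_le_card_of_injOn (fun v => v % B ^ b)
            (s := (P.filter fun v => E ≤ critCount B b (Pc (v / B ^ b)) (v % B ^ b)).filter
              fun v => v / B ^ b = j)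
            (t := (Pc j).filter fun v => E ≤ critCount B b (Pc j) v) ?_ ?_
          · exact_mod_cast hinj
          · intro v hv
            simp only [Finset.coe_filter, Finset.mem_filter, Set.mem_ofPred_eq] at hv ⊢
            exact ⟨Finset.mem_image.2 ⟨v, Finset.mem_filter.2 ⟨hv.1.1, hv.2⟩, rfl⟩,
              hv.2 ▸ hv.1.2⟩
          · intro u hu v hv he
            simp only [Finset.coe_filter, Set.mem_ofPred_eq] at hu hv
            rw [← Nat.div_add_mod u (B ^ b), ← Nat.div_add_mod v (B ^ b), hu.2, hv.2]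
            exact congrArg _ he
        · obtain ⟨w', _, rfl⟩ := Finset.mem_image.1 hw
          exact Finset.mem_range.2 (Nat.mod_lt _ hBb)
      have himg : P.image (fun w => w / B ^ b) ⊆ range B := by
        intro j hj
        obtain ⟨w, hw, rfl⟩ := Finset.mem_image.1 hj
        rw [Finset.mem_range, Nat.div_lt_iff_lt_mul hBb, mul_comm, ← pow_succ]
        exact hPlt w hw
      have hroot : ∀ v ∈ P, ∀ j < B, (∀ w ∈ P,
          w / B ^ (b + 1 - 0 - 1) ≠ v / B ^ (b + 1 - 0) * B + j) →
            j ∉ P.image fun w => w / B ^ b := by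
        intro v hv j _ hw hj
        obtain ⟨w, hwP, hwj⟩ := Finset.mem_image.1 hj
        apply hw w hwP
        simp only [Nat.sub_zero, Nat.add_sub_cancel]
        rw [hwj, Nat.div_eq_of_lt (hPlt v hv)]; simp
      have hpow : (1 - 1 / (B : ℝ)) * B = (B : ℝ) - 1 := by field_simp
      by_cases hmiss : ∃ j < B, j ∉ P.image fun w => w / B ^ b
      · obtain ⟨j0, hj0, hj0'⟩ := hmiss
        have hcard : (P.image fun w => w / B ^ b).card ≤ B - 1 := by
          have : P.image (fun w => w / B ^ b) ⊆ (range B).erase j0 := fun x hx =>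
            Finset.mem_erase.2 ⟨fun h => hj0' (h ▸ hx), himg hx⟩
          simpa [hj0] using Finset.card_le_card this
        calc ((P.filter fun v => D + 1 ≤ critCount B (b + 1) P v).card : ℝ)
            ≤ ((P.filter fun v => D ≤ critCount B b (Pc (v / B ^ b)) (v % B ^ b)).card : ℝ) := by
              apply Nat.cast_le.2
              refine Finset.card_le_card fun v hv => ?_
              rw [Finset.mem_filter] at hv ⊢
              have := hcount v hv.1
              refine ⟨hv.1, ?_⟩
              split at this <;> omega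
          _ ≤ _ := hsplit D
          _ ≤ ((B : ℝ) - 1) * ((B : ℝ) ^ b * (1 - 1 / (B : ℝ)) ^ D) := by
              gcongr
              calc ((P.image fun w => w / B ^ b).card : ℝ) ≤ ((B - 1 : ℕ) : ℝ) := by
                    exact_mod_cast hcard
                _ = _ := by push_cast [Nat.cast_sub (show 1 ≤ B by omega)]; ring
          _ = _ := by rw [← hpow]; ring
      · push Not at hmiss
        have h0 : ∀ v ∈ P, ¬ Crit B (b + 1) P 0 v := fun v hv ⟨j, hj, hw⟩ =>
          hroot v hv j hj hw (hmiss j hj)
        calc ((P.filter fun v => D + 1 ≤ critCount B (b + 1) P v).card : ℝ)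
            ≤ ((P.filter fun v => D + 1 ≤ critCount B b (Pc (v / B ^ b)) (v % B ^ b)).card : ℝ) := by
              apply Nat.cast_le.2
              refine Finset.card_le_card fun v hv => ?_
              rw [Finset.mem_filter] at hv ⊢
              have := hcount v hv.1
              rw [if_neg (h0 v hv.1)] at this
              exact ⟨hv.1, by omega⟩
          _ ≤ _ := hsplit (D + 1)
          _ ≤ (B : ℝ) * ((B : ℝ) ^ b * (1 - 1 / (B : ℝ)) ^ (D + 1)) := by
              gcongr
              exact_mod_cast (Finset.card_le_card himg).trans_eq (Finset.card_range B)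
          _ = _ := by ring

/-- If all leaves `z i` have few critical levels, some level of the window is free for all. -/
lemma exists_free_level {B b a D k : ℕ} (P : Fin k → Finset ℕ) (v : Fin k → ℕ)
    (hD : ∀ i, critCount B b (P i) (v i) < D) (hwin : k * D < b - a) :
    ∃ ℓ, a ≤ ℓ ∧ ℓ < b ∧ ∀ i, ¬ Crit B b (P i) ℓ (v i) := by
  classical
  by_contra h
  push Not at h
  have hsub : Finset.Ico a b ⊆ univ.biUnion fun i => (range b).filter fun ℓ => Crit B b (P i) ℓ (v i) := by
    intro ℓ hℓ
    rw [Finset.mem_Ico] at hℓ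
    obtain ⟨i, hi⟩ := h ℓ hℓ.1 hℓ.2
    simp only [Finset.mem_biUnion, mem_univ, true_and, Finset.mem_filter, Finset.mem_range]
    exact ⟨i, hℓ.2, hi⟩
  have := (Finset.card_le_card hsub).trans (Finset.card_biUnion_le_card_mul _ _ D
    fun i _ => (hD i).le)
  simp at this
  omega

end Vale.Agent.P037
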