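import Mathlib
import Vale.Agent.P037.Tree
import Vale.Agent.P037.Prob

/-! An entropy argument: some window loses few rows. -/

namespace Vale.Agent.P037

open Finset

variable {n : ℕ} {β : Type*} [DecidableEq β]

/-- The rows of `X` with the same letter and the same level-`ℓ` interval as `x`. -/
def cell (B : ℕ) (X : Finset (Fin n)) (Q : Fin n → β) (ℓ : ℕ) (x : Fin n) : Finset (Fin n) :=
  X.filter fun x' => Q x' = Q x ∧ node B n ℓ x' = node B n ℓ x

/-- The entropy potential. -/
noncomputable def potential (B : ℕ) (X : Finset (Fin n)) (Q : Fin n → β) (ℓ : ℕ) : ℝ :=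
  ∑ x ∈ X, Real.log (((cell B X Q ℓ x).card : ℝ) * (B : ℝ) ^ ℓ / n)

/-- The rows whose letter is absent from their random descendant interval. -/
def lost (B : ℕ) (X : Finset (Fin n)) (Q : Fin n → β) (a b r : ℕ) : Finset (Fin n) :=
  X.filter fun x => ¬ ∃ x' ∈ X, Q x' = Q x ∧ node B n b x' = node B n a x * B ^ (b - a) + r

lemma potential_gain {B : ℕ} (hB : 0 < B) (X : Finset (Fin n)) (Q : Fin n → β)
    {a b : ℕ} (hab : a ≤ b) :
    (avg fun r : Fin (B ^ (b - a)) => ((lost B X Q a b r.val).card : ℝ)) ≤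
      potential B X Q b - potential B X Q a := by
  classical
  set w := B ^ (b - a) with hw
  have hw0 : 0 < w := Nat.pow_pos hB
  have hwR : (0 : ℝ) < w := by exact_mod_cast hw0
  let img : Fin n → Finset ℕ := fun x => (cell B X Q a x).image (node B n b)
  -- the average loss
  have hlost : ∀ x ∈ X, (avg fun r : Fin w =>
      if ¬ ∃ x' ∈ X, Q x' = Q x ∧ node B n b x' = node B n a x * w + r.val then (1 : ℝ) else 0) =
        1 - ((img x).card : ℝ) / w := by
    intro x _
    have h1 : (univ.filter fun r : Fin w =>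
        ∃ x' ∈ X, Q x' = Q x ∧ node B n b x' = node B n a x * w + r.val).card = (img x).card := by
      refine Finset.card_bij (fun r _ => node B n a x * w + r.val) ?_ ?_ ?_
      · intro r hr
        obtain ⟨x', hx', hQ, hn⟩ := (Finset.mem_filter.1 hr).2
        refine Finset.mem_image.2 ⟨x', Finset.mem_filter.2 ⟨hx', hQ, ?_⟩, hn⟩
        rw [← node_div hB hab x', hn, ← hw, mul_comm, Nat.mul_add_div hw0,
          Nat.div_eq_of_lt r.isLt, add_zero]
      · intro r _ r' _ he
        exact Fin.ext (Nat.add_left_cancel he)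
      · intro v hv
        obtain ⟨x', hx', rfl⟩ := Finset.mem_image.1 hv
        obtain ⟨hxX, hQ, hn⟩ := Finset.mem_filter.1 hx'
        refine ⟨⟨node B n b x' % w, Nat.mod_lt _ hw0⟩, Finset.mem_filter.2 ⟨mem_univ _,
          x', hxX, hQ, ?_⟩, ?_⟩
        all_goals
          simp only
          rw [← hn, ← node_div hB hab x', ← hw, Nat.div_add_mod']
    unfold avg
    rw [Fintype.card_fin, Finset.sum_boole, Finset.filter_not,
      Finset.card_univ_diff, Fintype.card_fin, h1]
    have hle : (img x).card ≤ w := by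
      rw [← h1]; simpa using Finset.card_le_univ (univ.filter fun r : Fin w =>
        ∃ x' ∈ X, Q x' = Q x ∧ node B n b x' = node B n a x * w + r.val)
    rw [Nat.cast_sub hle]
    field_simp
  have havg : (avg fun r : Fin w => ((lost B X Q a b r.val).card : ℝ)) =
      ∑ x ∈ X, (1 - ((img x).card : ℝ) / w) := by
    rw [← Finset.sum_congr rfl hlost]
    unfold avg
    rw [← Finset.sum_div, Finset.sum_comm]
    congr 1
    refine Finset.sum_congr rfl fun r _ => ?_
    rw [Finset.sum_boole]
    simp [lost, hw]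
  rw [havg]
  -- counting the present descendants
  have hcell : ∀ ℓ, ∀ x ∈ X, 0 < ((cell B X Q ℓ x).card : ℝ) := fun ℓ x hx => by
    have : x ∈ cell B X Q ℓ x := by simp [cell, hx]
    exact_mod_cast Finset.card_pos.2 ⟨x, this⟩
  have himg : ∑ x ∈ X, ((img x).card : ℝ) =
      ∑ x ∈ X, ((cell B X Q a x).card : ℝ) / (cell B X Q b x).card := by
    have h1 : ∀ x ∈ X, ((img x).card : ℝ) =
        ∑ x' ∈ cell B X Q a x, 1 / ((cell B X Q b x').card : ℝ) := by
      intro x hx
      rw [← Finset.sum_fiberwise_of_maps_to (t := img x) (g := node B n b)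
        (fun z hz => Finset.mem_image_of_mem _ hz)]
      rw [Finset.card_eq_sum_ones]
      push_cast
      refine Finset.sum_congr rfl fun v hv => ?_
      obtain ⟨x0, hx0, rfl⟩ := Finset.mem_image.1 hv
      have hfib : (cell B X Q a x).filter (fun z => node B n b z = node B n b x0) =
          cell B X Q b x0 := by
        have hx0' := Finset.mem_filter.1 hx0
        ext z
        simp only [cell, Finset.mem_filter]
        constructor
        · rintro ⟨⟨hz, hQ, _⟩, hn⟩
          exact ⟨hz, hQ.trans hx0'.2.1.symm, hn⟩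
        · rintro ⟨hz, hQ, hn⟩
          refine ⟨⟨hz, hQ.trans hx0'.2.1, ?_⟩, hn⟩
          rw [← node_div hB hab z, hn, node_div hB hab x0, hx0'.2.2]
      rw [hfib, Finset.sum_congr rfl (g := fun _ => 1 / ((cell B X Q b x0).card : ℝ))]
      · rw [Finset.sum_const, nsmul_eq_mul, mul_one_div,
          div_self (hcell b x0 (Finset.mem_filter.1 hx0).1).ne']
      · intro z hz
        have hz' := Finset.mem_filter.1 hz
        simp only [cell, hz'.2.1, hz'.2.2]
    rw [Finset.sum_congr rfl h1]
    rw [Finset.sum_comm' (t' := X) (s' := fun x' => cell B X Q a x')]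
    · simp [div_eq_mul_inv]
    · intro x x'
      simp only [cell, Finset.mem_filter]
      constructor
      · rintro ⟨hx, hx', hQ, hn⟩; exact ⟨⟨hx, hQ.symm, hn.symm⟩, hx'⟩
      · rintro ⟨⟨hx, hQ, hn⟩, hx'⟩; exact ⟨hx, hx', hQ.symm, hn.symm⟩
  calc ∑ x ∈ X, (1 - ((img x).card : ℝ) / w)
      = ∑ x ∈ X, (1 - ((cell B X Q a x).card : ℝ) / (cell B X Q b x).card / w) := by
        simp only [Finset.sum_sub_distrib, ← Finset.sum_div, himg]
    _ ≤ ∑ x ∈ X, (Real.log (((cell B X Q b x).card : ℝ) * (B : ℝ) ^ b / n) -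
          Real.log (((cell B X Q a x).card : ℝ) * (B : ℝ) ^ a / n)) := by
        refine Finset.sum_le_sum fun x hx => ?_
        have hb := hcell b x hx
        have ha := hcell a x hx
        have hn : (0 : ℝ) < n := by exact_mod_cast x.pos
        have hB' : (0 : ℝ) < B := by exact_mod_cast hB
        rw [← Real.log_div (by positivity) (by positivity)]
        refine le_trans (le_of_eq ?_) (Real.one_sub_inv_le_log_of_pos (by positivity))
        have : (B : ℝ) ^ b = (B : ℝ) ^ a * (w : ℝ) := by
          rw [hw]; push_cast; rw [← pow_add, Nat.add_sub_cancel' hab]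
        rw [this]
        field_simp
    _ = _ := by rw [Finset.sum_sub_distrib]; rfl

lemma potential_top_le {B : ℕ} (hB : 0 < B) (X : Finset (Fin n)) (Q : Fin n → β) {L : ℕ}
    (hL : B ^ L ≤ n) : potential B X Q L ≤ n := by
  unfold potential
  calc ∑ x ∈ X, Real.log (((cell B X Q L x).card : ℝ) * (B : ℝ) ^ L / n)
      ≤ ∑ _x ∈ X, (1 : ℝ) := by
        refine Finset.sum_le_sum fun x hx => ?_
        have hn : (0 : ℝ) < n := by exact_mod_cast x.pos
        have hc : (cell B X Q L x).card ≤ n / B ^ L + 1 :=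
          (Finset.card_le_card fun z hz => by
            simpa [cell] using (Finset.mem_filter.1 hz).2.2).trans (card_node_fiber hB L (node B n L x))
        have h2 : (cell B X Q L x).card * B ^ L ≤ 2 * n := by
          calc (cell B X Q L x).card * B ^ L ≤ (n / B ^ L + 1) * B ^ L := Nat.mul_le_mul_right _ hc
            _ = n / B ^ L * B ^ L + B ^ L := by ring
            _ ≤ n + n := Nat.add_le_add (Nat.div_mul_le_self _ _) hL
            _ = 2 * n := by ring
        have hpos : 0 < (cell B X Q L x).card :=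
          Finset.card_pos.2 ⟨x, by simp [cell, hx]⟩
        have hpos' : (0 : ℝ) < ((cell B X Q L x).card : ℝ) * (B : ℝ) ^ L / n := by
          have : (0 : ℝ) < B := by exact_mod_cast hB
          have : (0 : ℝ) < ((cell B X Q L x).card : ℝ) := by exact_mod_cast hpos
          positivity
        refine (Real.log_le_sub_one_of_pos hpos').trans ?_
        rw [sub_le_iff_le_add, div_le_iff₀ hn]
        have h3 : ((cell B X Q L x).card : ℝ) * (B : ℝ) ^ L ≤ 2 * n := by exact_mod_cast h2
        linarith
    _ ≤ n := by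
        simp only [Finset.sum_const, nsmul_eq_mul, mul_one]
        exact_mod_cast card_finset_fin_le X

lemma potential_zero_ge {B : ℕ} (hn : 0 < n) (X : Finset (Fin n)) (Q : Fin n → β) {M : ℕ}
    (hM : (X.image Q).card ≤ M) :
    -((n : ℝ) * (Real.log (M + 1) + 1)) ≤ potential B X Q 0 := by
  classical
  have hn' : (0 : ℝ) < n := by exact_mod_cast hn
  have hM1 : (0 : ℝ) < (M : ℝ) + 1 := by positivity
  have hcell : ∀ x ∈ X, 0 < ((cell B X Q 0 x).card : ℝ) := fun x hx => by
    have : x ∈ cell B X Q 0 x := by simp [cell, hx]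
    exact_mod_cast Finset.card_pos.2 ⟨x, this⟩
  have hsum : ∑ x ∈ X, 1 / ((cell B X Q 0 x).card : ℝ) = (X.image Q).card := by
    rw [← Finset.sum_fiberwise_of_maps_to (t := X.image Q) (g := Q)
      (fun z hz => Finset.mem_image_of_mem _ hz)]
    rw [Finset.card_eq_sum_ones]
    push_cast
    refine Finset.sum_congr rfl fun v hv => ?_
    obtain ⟨x0, hx0, rfl⟩ := Finset.mem_image.1 hv
    have hf : ∀ z ∈ X.filter (fun z => Q z = Q x0),
        cell B X Q 0 z = X.filter (fun z => Q z = Q x0) := by
      intro z hz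
      ext u; simp [cell, node_zero, (Finset.mem_filter.1 hz).2]
    rw [Finset.sum_congr rfl (g := fun _ => 1 / ((X.filter fun z => Q z = Q x0).card : ℝ))
      fun z hz => by rw [hf z hz]]
    rw [Finset.sum_const, nsmul_eq_mul, mul_one_div, div_self]
    have : x0 ∈ X.filter fun z => Q z = Q x0 := by simp [hx0]
    exact_mod_cast (Finset.card_pos.2 ⟨x0, this⟩).ne'
  have h1 : ∀ x ∈ X, -Real.log ((M : ℝ) + 1) + 1 -
      (n : ℝ) / (((M : ℝ) + 1) * (cell B X Q 0 x).card) ≤
      Real.log (((cell B X Q 0 x).card : ℝ) * (B : ℝ) ^ 0 / n) := by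
    intro x hx
    have hc := hcell x hx
    have := Real.one_sub_inv_le_log_of_pos
      (show 0 < ((cell B X Q 0 x).card : ℝ) / n * ((M : ℝ) + 1) by positivity)
    rw [Real.log_mul (by positivity) hM1.ne'] at this
    rw [pow_zero, mul_one]
    have e : (((cell B X Q 0 x).card : ℝ) / n * ((M : ℝ) + 1))⁻¹ =
        (n : ℝ) / (((M : ℝ) + 1) * (cell B X Q 0 x).card) := by field_simp
    linarith
  refine le_trans ?_ (Finset.sum_le_sum h1)
  rw [Finset.sum_sub_distrib, Finset.sum_const, nsmul_eq_mul]
  have h2 : ∑ x ∈ X, (n : ℝ) / (((M : ℝ) + 1) * (cell B X Q 0 x).card) =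
      (n : ℝ) / ((M : ℝ) + 1) * (X.image Q).card := by
    rw [← hsum, Finset.mul_sum]
    refine Finset.sum_congr rfl fun x hx => ?_
    field_simp
  rw [h2]
  have hXn : (X.card : ℝ) ≤ n := by exact_mod_cast card_finset_fin_le X
  have hl : 0 ≤ Real.log ((M : ℝ) + 1) := Real.log_nonneg (by linarith [(Nat.cast_nonneg M : (0:ℝ) ≤ M)])
  have h3 : (n : ℝ) / ((M : ℝ) + 1) * (X.image Q).card ≤ n := by
    rw [div_mul_eq_mul_div, div_le_iff₀ hM1]
    gcongr
    have : ((X.image Q).card : ℝ) ≤ M := by exact_mod_cast hM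
    linarith
  nlinarith [(Nat.cast_nonneg X.card : (0:ℝ) ≤ X.card)]

/-- Some window of a chain loses at most `(log (M+1) + 2) n / m` rows on average. -/
lemma exists_window {B : ℕ} (hB : 0 < B) (hn : 0 < n) (X : Finset (Fin n)) (Q : Fin n → β)
    {M m : ℕ} (hm : 0 < m) (hM : (X.image Q).card ≤ M) (T : ℕ → ℕ) (hT : Monotone T)
    (hT0 : T 0 = 0) (hL : B ^ T m ≤ n) :
    ∃ i < m, (avg fun r : Fin (B ^ (T (i + 1) - T i)) =>
      ((lost B X Q (T i) (T (i + 1)) r.val).card : ℝ)) ≤
        (n : ℝ) * (Real.log (M + 1) + 2) / m := by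
  set c := (n : ℝ) * (Real.log (M + 1) + 2) / m with hc
  by_contra h
  push Not at h
  have h1 : ∀ i ∈ range m, c < potential B X Q (T (i + 1)) - potential B X Q (T i) :=
    fun i hi => (h i (Finset.mem_range.1 hi)).trans_le
      (potential_gain hB X Q (hT (Nat.le_succ i)))
  have h2 := Finset.sum_lt_sum_of_nonempty (Finset.nonempty_range_iff.2 hm.ne') h1
  rw [Finset.sum_range_sub (fun i => potential B X Q (T i)), Finset.sum_const,
    Finset.card_range, nsmul_eq_mul, hT0] at h2
  have h3 : (m : ℝ) * c = (n : ℝ) * (Real.log (M + 1) + 2) := by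
    rw [hc]; field_simp
  have h4 := potential_top_le hB X Q hL
  have h5 := potential_zero_ge (B := B) hn X Q hM
  have h6 : (0 : ℝ) < n := by exact_mod_cast hn
  nlinarith

end Vale.Agent.P037
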