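import Mathlib
import Vale.Agent.P037.Sample
import Vale.Agent.P037.Tree
import Vale.Agent.P037.Window

/-! Choice of the sampled rows and of the common offset inside the window. -/

namespace Vale.Agent.P037

open Finset

variable {n k : ℕ}

/-- The leaves of depth `b` occupied by the rows of `S` of colour `c`. -/
def leaves (B b : ℕ) (A : Fin n → Fin n → Bool) (S T : Finset (Fin n)) (c : Finset (Fin n)) :
    Finset ℕ :=
  (S.filter fun s => rowType A T s = c).image (node B n b)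

/-- A leaf is bad if some colour occurring in it has at least `D` critical levels there. -/
def BadLeaf (B b D : ℕ) (A : Fin n → Fin n → Bool) (S T : Finset (Fin n)) (v : ℕ) : Prop :=
  ∃ c ∈ S.image (rowType A T), v ∈ leaves B b A S T c ∧ D ≤ critCount B b (leaves B b A S T c) v

/-- No copy in `S × T`, but some chosen leaf is bad. -/
def BadChoice (H : Fin k → Fin k → Bool) (B a b D : ℕ) (A : Fin n → Fin n → Bool)
    (S T : Finset (Fin n)) (r : ℕ) : Prop :=
  NoCopy H A S T ∧ ∃ J < B ^ a, BadLeaf B b D A S T (J * B ^ (b - a) + r)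

lemma badChoice_prob (H : Fin k → Fin k → Bool) (A : Fin n → Fin n → Bool) {d : ℕ}
    (hd : ∀ S T : Finset (Fin n), NoCopy H A S T →
      (S.image (rowType A T)).card ≤ (T.card + 1) ^ d)
    {B a b : ℕ} (hB : 2 ≤ B) (hab : a ≤ b) (D : ℕ) (S T : Finset (Fin n)) :
    pr (fun r : Fin (B ^ (b - a)) => BadChoice H B a b D A S T r.val) ≤
      ((T.card : ℝ) + 1) ^ d * (B : ℝ) ^ a * (1 - 1 / (B : ℝ)) ^ D := by
  classical
  have hB0 : (0 : ℝ) < B := by exact_mod_cast (show 0 < B by omega)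
  have hq : (0 : ℝ) ≤ 1 - 1 / (B : ℝ) := by
    rw [sub_nonneg, div_le_one hB0]; exact_mod_cast (show 1 ≤ B by omega)
  by_cases hf : NoCopy H A S T
  swap
  · have : ∀ r : Fin (B ^ (b - a)), ¬ BadChoice H B a b D A S T r.val := fun r h => hf h.1
    rw [pr_eq_card, Finset.filter_false_of_mem fun r _ => this r]
    simp only [Finset.card_empty, Nat.cast_zero, zero_div]
    positivity
  set cols := S.image (rowType A T) with hcols
  set bad := cols.biUnion fun c => (leaves B b A S T c).filter fun v =>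
    D ≤ critCount B b (leaves B b A S T c) v with hbad
  have hbadcard : (bad.card : ℝ) ≤
      ((T.card : ℝ) + 1) ^ d * ((B : ℝ) ^ b * (1 - 1 / (B : ℝ)) ^ D) := by
    calc (bad.card : ℝ) ≤ ∑ c ∈ cols, (((leaves B b A S T c).filter fun v =>
          D ≤ critCount B b (leaves B b A S T c) v).card : ℝ) := by
          exact_mod_cast Finset.card_biUnion_le
      _ ≤ cols.card • ((B : ℝ) ^ b * (1 - 1 / (B : ℝ)) ^ D) :=
          Finset.sum_le_card_nsmul _ _ _ fun c _ => card_many_crit B hB b _ (fun v hv => by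
            obtain ⟨x, _, rfl⟩ := Finset.mem_image.1 hv
            exact Finset.mem_range.2 (node_lt (by omega) b x)) D
      _ ≤ _ := by
          rw [nsmul_eq_mul]
          gcongr
          exact_mod_cast hd S T hf
  have hcard : ((univ.filter fun r : Fin (B ^ (b - a)) =>
      BadChoice H B a b D A S T r.val).card : ℝ) ≤ bad.card := by
    apply Nat.cast_le.2
    refine le_trans (Finset.card_le_card (t := bad.image fun v =>
      (⟨v % B ^ (b - a), Nat.mod_lt _ (Nat.pow_pos (by omega))⟩ : Fin (B ^ (b - a)))) ?_)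
      Finset.card_image_le
    intro r hr
    obtain ⟨J, _, c, hc, hv, hD⟩ := (Finset.mem_filter.1 hr).2.2
    refine Finset.mem_image.2 ⟨J * B ^ (b - a) + r.val,
      Finset.mem_biUnion.2 ⟨c, hc, Finset.mem_filter.2 ⟨hv, hD⟩⟩, ?_⟩
    ext
    simp [Nat.mod_eq_of_lt r.isLt]
  rw [pr_eq_card, Fintype.card_fin, div_le_iff₀ (by push_cast; positivity)]
  refine hcard.trans (hbadcard.trans (le_of_eq ?_))
  push_cast
  have : (B : ℝ) ^ b = (B : ℝ) ^ a * (B : ℝ) ^ (b - a) := by
    rw [← pow_add, Nat.add_sub_cancel' hab]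
  rw [this]; ring

lemma exists_sample (hn : 0 < n) (H : Fin k → Fin k → Bool) (A : Fin n → Fin n → Bool) {d : ℕ}
    (hd : ∀ S T : Finset (Fin n), NoCopy H A S T →
      (S.image (rowType A T)).card ≤ (T.card + 1) ^ d)
    {β : Type*} [DecidableEq β] (X : Finset (Fin n)) (Q : Fin n → β) {p₀ : ℕ}
    (hXQ : (X.image Q).card ≤ p₀) {B a b L : ℕ} (hB : 2 ≤ B) (hab : a ≤ b)
    (D qS p₁ qT : ℕ) (η θ₀ : ℝ) (hη : 0 < η) (hθ1 : θ₀ ≤ 1)
    (hheavy : ∀ x ∈ X, θ₀ * n ≤ ((cell B X Q L x).card : ℝ))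
    (hlost : (avg fun r : Fin (B ^ (b - a)) => ((lost B X Q a b r.val).card : ℝ)) ≤ η * n)
    (hcover : 4 * ((p₀ : ℝ) * (B : ℝ) ^ L * (1 - θ₀) ^ qS) ≤ 1 / 8)
    (hcopy₁ : (qS : ℝ) ^ k * ((p₁ : ℝ) + 1) ^ k * ((numCopies H A : ℝ) / (n : ℝ) ^ (2 * k)) ≤ η / 8)
    (hcopy₂ : (qS : ℝ) ^ k * (qT : ℝ) ^ k * ((numCopies H A : ℝ) / (n : ℝ) ^ (2 * k)) ≤ 1 / 32)
    (hbad : ((qT : ℝ) + 1) ^ d * (B : ℝ) ^ a * (1 - 1 / (B : ℝ)) ^ D ≤ 1 / 32) :
    ∃ (S : Finset (Fin n)) (r : ℕ), S.card ≤ qS ∧ r < B ^ (b - a) ∧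
      ((lost B X Q a b r).card : ℝ) ≤ 4 * η * n ∧
      (∀ x ∈ X, ∃ z ∈ cell B X Q L x, z ∈ S) ∧
      pr (fun s : Fin (p₁ + 1) → Fin n => ¬ NoCopy H A S (valSet s)) ≤ η ∧
      pr (fun t : Fin qT → Fin n => ¬ NoCopy H A S (valSet t)) ≤ 1 / 4 ∧
      pr (fun t : Fin qT → Fin n => BadChoice H B a b D A S (valSet t) r) ≤ 1 / 4 := by
  classical
  have hn' : (0 : ℝ) < n := by exact_mod_cast hn
  have : Nonempty (Fin n) := ⟨⟨0, hn⟩⟩
  have hB0 : (0 : ℝ) < B := by exact_mod_cast (show 0 < B by omega)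
  have : Nonempty (Fin (B ^ (b - a))) := ⟨⟨0, Nat.pow_pos (by omega)⟩⟩
  set miss : (Fin qS → Fin n) → Prop := fun s =>
    ∃ x ∈ X, ∀ i, s i ∉ cell B X Q L x with hmiss
  have hpmiss : pr miss ≤ (p₀ : ℝ) * (B : ℝ) ^ L * (1 - θ₀) ^ qS := by
    set cells := X.image (cell B X Q L) with hcells
    refine (pr_mono (q := fun s : Fin qS → Fin n => ∃ C ∈ cells, ∀ i, s i ∉ C) ?_).trans
      ((pr_exists_finset cells _).trans ?_)
    · rintro s ⟨x, hx, hs⟩
      exact ⟨_, Finset.mem_image_of_mem _ hx, hs⟩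
    refine (Finset.sum_le_card_nsmul _ _ ((1 - θ₀) ^ qS) fun C hC => ?_).trans ?_
    · obtain ⟨x, hx, rfl⟩ := Finset.mem_image.1 hC
      exact pr_miss_le hn _ (hheavy x hx)
    rw [nsmul_eq_mul]
    gcongr
    have h1 : cells = (X.image fun x => (Q x, node B n L x)).image
        fun K => X.filter fun z => Q z = K.1 ∧ node B n L z = K.2 := by
      rw [hcells, Finset.image_image]; rfl
    have h2 : cells.card ≤ p₀ * B ^ L := by
      rw [h1]
      refine Finset.card_image_le.trans ?_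
      calc _ ≤ ((X.image Q) ×ˢ Finset.range (B ^ L)).card := Finset.card_le_card (fun K hK => by
            obtain ⟨x, hx, rfl⟩ := Finset.mem_image.1 hK
            exact Finset.mem_product.2 ⟨Finset.mem_image_of_mem _ hx,
              Finset.mem_range.2 (node_lt (by omega) L x)⟩)
        _ ≤ _ := by rw [Finset.card_product, Finset.card_range]; gcongr
    exact_mod_cast h2
  let g1 : (Fin qS → Fin n) → ℝ := fun s =>
    pr fun u : Fin (p₁ + 1) → Fin n => ¬ NoCopy H A (valSet s) (valSet u)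
  let g2 : (Fin qS → Fin n) → ℝ := fun s =>
    pr fun t : Fin qT → Fin n => ¬ NoCopy H A (valSet s) (valSet t)
  let g3 : (Fin qS → Fin n) → Fin (B ^ (b - a)) → ℝ := fun s r =>
    pr fun t : Fin qT → Fin n => BadChoice H B a b D A (valSet s) (valSet t) r.val
  let ls : Fin (B ^ (b - a)) → ℝ := fun r => ((lost B X Q a b r.val).card : ℝ)
  have h3 : ∀ s, (avg fun r => g3 s r) ≤ 1 / 32 := by
    intro s
    show (avg fun r => avg fun t => _) ≤ _
    rw [avg_swap]
    refine (avg_mono fun t => (badChoice_prob H A hd hB hab D (valSet s) (valSet t)).trans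
      (le_trans ?_ hbad)).trans (avg_const _).le
    gcongr
    · exact pow_nonneg (by
        rw [sub_nonneg, div_le_one hB0]; exact_mod_cast (show 1 ≤ B by omega)) _
    · exact_mod_cast card_valSet t
  let f : (Fin qS → Fin n) × Fin (B ^ (b - a)) → ℝ := fun w =>
    (4 * if miss w.1 then 1 else 0) + (1 / (4 * η * n)) * ls w.2 + (1 / η) * g1 w.1 +
      4 * g2 w.1 + 4 * g3 w.1 w.2
  have hf : avg f ≤ 3 / 4 := by
    rw [avg_prod]
    have e : ∀ s, (avg fun r => f (s, r)) ≤ (4 * if miss s then 1 else 0) +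
        (1 / (4 * η * n)) * (η * n) + (1 / η) * g1 s + 4 * g2 s + 4 * (1 / 32) := by
      intro s
      simp only [f]
      rw [avg_add, avg_add, avg_add, avg_add, avg_mul_left (1 / (4 * η * n)),
        avg_mul_left 4 (fun r => g3 s r)]
      simp only [avg_const]
      gcongr
      · exact (avg_const (4 * if miss s then (1 : ℝ) else 0)).le
      · exact h3 s
    refine (avg_mono e).trans ?_
    rw [avg_add, avg_add, avg_add, avg_add, avg_mul_left 4 (fun s => if miss s then (1 : ℝ) else 0),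
      avg_mul_left (1 / η) g1, avg_mul_left 4 g2]
    simp only [avg_const]
    have e1 : 4 * avg (fun s => if miss s then (1 : ℝ) else 0) ≤ 1 / 8 := by
      refine le_trans ?_ hcover
      gcongr
      refine le_trans (le_of_eq ?_) hpmiss
      unfold pr; congr! 3
    have e2 : 1 / (4 * η * n) * (η * n) = 1 / 4 := by field_simp
    have e3 : 1 / η * avg g1 ≤ 1 / 8 := by
      have h := copy_prob hn H A qS (p₁ + 1)
      push_cast at h
      rw [one_div_mul_eq_div, div_le_iff₀ hη]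
      exact h.trans (hcopy₁.trans (by linarith))
    have e4 : 4 * avg g2 ≤ 1 / 8 := by
      have h := copy_prob hn H A qS qT
      have : avg g2 ≤ 1 / 32 := h.trans hcopy₂
      linarith
    linarith
  obtain ⟨⟨s, r⟩, hsr⟩ := exists_le_avg f
  have hb := hsr.trans hf
  simp only [f] at hb
  have hl0 : 0 ≤ 1 / (4 * η * n) * ls r := by
    have : 0 ≤ ls r := Nat.cast_nonneg _
    positivity
  have hg1 : 0 ≤ 1 / η * g1 s := mul_nonneg (by positivity) (pr_nonneg _)
  have hg2 : 0 ≤ g2 s := pr_nonneg _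
  have hg3 : 0 ≤ g3 s r := pr_nonneg _
  have hmi : (0 : ℝ) ≤ 4 * if miss s then 1 else 0 := by split_ifs <;> norm_num
  refine ⟨valSet s, r.val, card_valSet s, r.isLt, ?_, ?_, ?_, ?_, ?_⟩
  · have h : 1 / (4 * η * n) * ls r ≤ 1 := by linarith
    rw [one_div_mul_eq_div, div_le_iff₀ (by positivity)] at h
    linarith
  · intro x hx
    by_contra hc
    push Not at hc
    have hms : miss s := ⟨x, hx, fun i hi => hc _ hi ((mem_valSet s).2 ⟨i, rfl⟩)⟩
    rw [if_pos hms] at hb
    linarith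
  · have h : 1 / η * g1 s ≤ 1 := by linarith
    rw [one_div_mul_eq_div, div_le_iff₀ hη] at h
    linarith
  · show g2 s ≤ 1 / 4
    linarith
  · show g3 s r ≤ 1 / 4
    linarith

end Vale.Agent.P037
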