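import Mathlib
import Vale.Agent.P037.Sample
import Vale.Agent.P037.Tree
import Vale.Agent.P037.Window

/-! Coarse row letters: few letters, each row close to the centre of its letter. -/

namespace Vale.Agent.P037

open Finset

variable {n k : ℕ}

/-- The number of entries in which rows `x` and `y` differ. -/
def rowDist (A : Fin n → Fin n → Bool) (x y : Fin n) : ℕ :=
  (univ.filter fun t => A x t ≠ A y t).card

lemma rowDist_comm (A : Fin n → Fin n → Bool) (x y : Fin n) :
    rowDist A x y = rowDist A y x := by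
  simp only [rowDist, ne_comm]

lemma rowDist_triangle (A : Fin n → Fin n → Bool) (x y z : Fin n) :
    rowDist A x z ≤ rowDist A x y + rowDist A y z := by
  unfold rowDist
  refine (Finset.card_le_card (t := (univ.filter fun t => A x t ≠ A y t) ∪
    univ.filter fun t => A y t ≠ A z t) fun t ht => ?_).trans (Finset.card_union_le _ _)
  simp only [Finset.mem_filter, mem_univ, true_and, Finset.mem_union] at ht ⊢
  by_cases h : A x t = A y t
  · exact Or.inr (h ▸ ht)
  · exact Or.inl h

lemma exists_letters (hn : 0 < n) (H : Fin k → Fin k → Bool) (A : Fin n → Fin n → Bool)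
    {d : ℕ} (hd : ∀ S T : Finset (Fin n), NoCopy H A S T →
      (S.image (rowType A T)).card ≤ (T.card + 1) ^ d)
    (q₀ p₀ B L : ℕ) (hB : 0 < B) (η θ₀ : ℝ) (hη : 0 < η) (hη1 : η ≤ 1) (hθ : 0 ≤ θ₀)
    (hq : 4 * ((p₀ : ℝ) + 1) * (1 - η) ^ q₀ ≤ η ^ 2)
    (hp : ((q₀ : ℝ) + 1) ^ d ≤ η * (p₀ + 1))
    (hcopy : ((p₀ : ℝ) + 1) ^ k * (q₀ : ℝ) ^ k * ((numCopies H A : ℝ) / (n : ℝ) ^ (2 * k)) ≤ η / 4)
    (hlight : (p₀ : ℝ) * (B : ℝ) ^ L * θ₀ ≤ η) :
    ∃ (Q : Fin n → Finset (Fin n)) (ctr : Fin n → Fin n) (X : Finset (Fin n)),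
      (X.image Q).card ≤ p₀ ∧ (((univ : Finset (Fin n)) \ X).card : ℝ) ≤ 5 * η * n ∧
      (∀ x y, Q x = Q y → ctr x = ctr y) ∧
      (∀ x ∈ X, (rowDist A x (ctr x) : ℝ) ≤ η * n) ∧
      ∀ x ∈ X, θ₀ * n ≤ ((cell B X Q L x).card : ℝ) := by
  classical
  have hn' : (0 : ℝ) < n := by exact_mod_cast hn
  have : Nonempty (Fin n) := ⟨⟨0, hn⟩⟩
  have hp1 : (0 : ℝ) < (p₀ : ℝ) + 1 := by positivity
  -- far pairs with equal type
  let F : (Fin q₀ → Fin n) → ℝ := fun t => avg fun x : Fin n => avg fun y : Fin n =>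
    if rowType A (valSet t) x = rowType A (valSet t) y ∧ η * n < rowDist A x y then 1 else 0
  let g : (Fin q₀ → Fin n) → ℝ := fun t =>
    pr fun s : Fin (p₀ + 1) → Fin n => ¬ NoCopy H A (valSet s) (valSet t)
  have hF : avg F ≤ (1 - η) ^ q₀ := by
    show (avg fun t => avg fun x => _) ≤ _
    rw [avg_swap]
    refine (avg_mono fun x => ?_).trans (avg_const ((1 - η) ^ q₀)).le
    rw [avg_swap]
    refine (avg_mono fun y => ?_).trans (avg_const ((1 - η) ^ q₀)).le
    by_cases hfar : η * n < rowDist A x y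
    · refine le_trans ?_ (pr_miss_le (q := q₀) hn (univ.filter fun t => A x t ≠ A y t) hfar.le)
      refine avg_mono fun t => ?_
      by_cases h : rowType A (valSet t) x = rowType A (valSet t) y
      · have : ∀ i, t i ∉ univ.filter fun u => A x u ≠ A y u := fun i => by
          simp [eq_of_rowType_eq h ((mem_valSet t).2 ⟨i, rfl⟩)]
        beta_reduce
        split_ifs with h1 <;> norm_num
      · rw [if_neg (fun h' => h h'.1)]
        split_ifs <;> norm_num
    · have h0 : (0 : ℝ) ≤ (1 - η) ^ q₀ := pow_nonneg (by linarith) _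
      refine le_trans (le_of_eq ?_) h0
      simp [avg, hfar]
  have hg : avg g ≤ η / 4 := by
    refine le_trans ?_ hcopy
    show (avg fun t => avg fun s => _) ≤ _
    rw [avg_swap]
    have := copy_prob hn H A (p₀ + 1) q₀
    push_cast at this
    exact this
  obtain ⟨t, ht⟩ := exists_le_avg fun t => ((p₀ + 1) / η ^ 2) * F t + (1 / η) * g t
  rw [avg_add, avg_mul_left, avg_mul_left] at ht
  have ht' : ((p₀ + 1) / η ^ 2) * F t + (1 / η) * g t ≤ 1 / 2 := by
    refine ht.trans ?_
    have h1 : ((p₀ + 1) / η ^ 2) * avg F ≤ 1 / 4 := by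
      rw [div_mul_eq_mul_div, div_le_iff₀ (by positivity)]
      nlinarith [mul_le_mul_of_nonneg_left hF hp1.le]
    have h2 : (1 / η) * avg g ≤ 1 / 4 := by
      rw [div_mul_eq_mul_div, one_mul, div_le_iff₀ hη]
      linarith
    linarith
  have hF0 : 0 ≤ F t := avg_nonneg fun x => avg_nonneg fun y => ite_nonneg zero_le_one le_rfl
  have hg0 : 0 ≤ g t := pr_nonneg _
  have hFt : F t ≤ η ^ 2 / (p₀ + 1) := by
    rw [le_div_iff₀ hp1]
    have h : ((p₀ + 1) / η ^ 2) * F t ≤ 1 := by
      nlinarith [mul_nonneg (one_div_nonneg.2 hη.le) hg0]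
    rw [div_mul_eq_mul_div, div_le_iff₀ (by positivity)] at h
    linarith
  have hgt : g t ≤ η := by
    have h : (1 / η) * g t ≤ 1 := by
      nlinarith [mul_nonneg (show 0 ≤ ((p₀ : ℝ) + 1) / η ^ 2 by positivity) hF0]
    rw [div_mul_eq_mul_div, one_mul, div_le_iff₀ hη] at h
    linarith
  set τ : Fin n → Finset (Fin n) := rowType A (valSet t) with hτ
  obtain ⟨Z, hZc, hZ⟩ := exists_cover (p := p₀) (M := (q₀ + 1) ^ d) hn τ
  have hbad1 : ((univ.filter fun x => τ x ∉ Z).card : ℝ) ≤ 2 * η * n := by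
    refine hZ.trans ?_
    gcongr
    have h1 : (((q₀ + 1) ^ d : ℕ) : ℝ) / (p₀ + 1) ≤ η := by
      rw [div_le_iff₀ hp1]; push_cast; linarith
    have h2 : pr (fun s : Fin (p₀ + 1) → Fin n => (q₀ + 1) ^ d < (univ.image (τ ∘ s)).card) ≤
        g t := by
      refine pr_mono fun s hs hfree => ?_
      have h := hd _ _ hfree
      have e : univ.image (τ ∘ s) = (valSet s).image τ := Finset.image_image.symm
      rw [e] at hs
      exact absurd (h.trans (Nat.pow_le_pow_left (Nat.succ_le_succ (card_valSet t)) d))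
        (not_le.2 hs)
    linarith
  -- centres
  let cls : Finset (Fin n) → Finset (Fin n) := fun Q => univ.filter fun x => τ x = Q
  let far : Fin n → Finset (Fin n) := fun c =>
    (cls (τ c)).filter fun y => η * n < rowDist A c y
  have hctr : ∀ Q : Finset (Fin n), ∃ c, (cls Q).Nonempty →
      c ∈ cls Q ∧ ∀ c' ∈ cls Q, (far c).card ≤ (far c').card := by
    intro Q
    by_cases h : (cls Q).Nonempty
    · obtain ⟨c, hc, hmin⟩ := Finset.exists_min_image (cls Q) (fun c => (far c).card) h
      exact ⟨c, fun _ => ⟨hc, hmin⟩⟩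
    · exact ⟨Classical.arbitrary _, fun h' => absurd h' h⟩
  choose cQ hcQ using hctr
  set thr : ℝ := η * n / (p₀ + 1) with hthr
  let small := Z.filter fun Q => ((cls Q).card : ℝ) < thr
  let Xs := small.biUnion cls
  let Xf := (Z \ small).biUnion fun Q => far (cQ Q)
  have hXs : (Xs.card : ℝ) ≤ η * n := by
    calc (Xs.card : ℝ) ≤ ∑ Q ∈ small, ((cls Q).card : ℝ) := by exact_mod_cast Finset.card_biUnion_le
      _ ≤ small.card • thr := Finset.sum_le_card_nsmul _ _ _ fun Q hQ =>
          (Finset.mem_filter.1 hQ).2.le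
      _ ≤ (p₀ + 1) * thr := by
          rw [nsmul_eq_mul]
          gcongr
          have : small.card ≤ p₀ := (Finset.card_filter_le _ _).trans hZc
          have : (small.card : ℝ) ≤ p₀ := by exact_mod_cast this
          linarith
      _ = _ := by rw [hthr]; field_simp
  have hXf : (Xf.card : ℝ) ≤ η * n := by
    have hthr0 : 0 < thr := by positivity
    have hpairs : ∑ x : Fin n, ((far x).card : ℝ) = F t * (n * n) := by
      simp only [F, avg, Fintype.card_fin, ← Finset.sum_div]
      rw [div_div, div_mul_cancel₀ _ (by positivity)]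
      refine Finset.sum_congr rfl fun x _ => ?_
      rw [Finset.sum_boole]
      simp [far, cls, hτ, Finset.filter_filter, eq_comm]
    have h1 : ∀ Q ∈ Z \ small, ((far (cQ Q)).card : ℝ) * thr ≤ ∑ x ∈ cls Q, ((far x).card : ℝ) := by
      intro Q hQ
      simp only [small, Finset.mem_sdiff, Finset.mem_filter, not_and, not_lt] at hQ
      have hbig := hQ.2 hQ.1
      have hne : (cls Q).Nonempty := by
        rw [← Finset.card_pos]; exact_mod_cast hthr0.trans_le hbig
      calc ((far (cQ Q)).card : ℝ) * thr ≤ ((far (cQ Q)).card : ℝ) * (cls Q).card := by gcongr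
        _ = (cls Q).card • ((far (cQ Q)).card : ℝ) := by rw [nsmul_eq_mul]; ring
        _ ≤ _ := Finset.card_nsmul_le_sum _ _ _ fun x hx => by
            exact_mod_cast (hcQ Q hne).2 x hx
    have h2 : (Xf.card : ℝ) * thr ≤ F t * (n * n) := by
      calc (Xf.card : ℝ) * thr ≤ (∑ Q ∈ Z \ small, ((far (cQ Q)).card : ℝ)) * thr := by
            gcongr; exact_mod_cast Finset.card_biUnion_le
        _ ≤ ∑ Q ∈ Z \ small, ∑ x ∈ cls Q, ((far x).card : ℝ) := by
            rw [Finset.sum_mul]; exact Finset.sum_le_sum h1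
        _ ≤ ∑ x : Fin n, ((far x).card : ℝ) := by
            rw [← Finset.sum_biUnion]
            · exact Finset.sum_le_sum_of_subset_of_nonneg (Finset.subset_univ _)
                fun _ _ _ => by positivity
            · intro Q _ R _ hne
              refine Finset.disjoint_left.2 fun x hx hx' => hne ?_
              rw [← (Finset.mem_filter.1 hx).2, ← (Finset.mem_filter.1 hx').2]
        _ = _ := hpairs
    rw [← mul_le_mul_iff_of_pos_right hthr0]
    refine h2.trans ?_
    calc F t * (n * n) ≤ η ^ 2 / (p₀ + 1) * (n * n) := by gcongr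
      _ = _ := by rw [hthr]; field_simp
  set X1 := univ.filter fun x => τ x ∈ Z ∧ x ∉ Xs ∧ x ∉ Xf with hX1
  set key : Fin n → Finset (Fin n) × ℕ := fun x => (τ x, node B n L x) with hkey
  let light := (X1.image key).filter fun K => ((X1.filter fun x => key x = K).card : ℝ) < θ₀ * n
  let Xl := light.biUnion fun K => X1.filter fun x => key x = K
  have hXl : (Xl.card : ℝ) ≤ η * n := by
    calc (Xl.card : ℝ) ≤ ∑ K ∈ light, ((X1.filter fun x => key x = K).card : ℝ) := by
          exact_mod_cast Finset.card_biUnion_le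
      _ ≤ light.card • (θ₀ * n) := Finset.sum_le_card_nsmul _ _ _ fun K hK =>
          (Finset.mem_filter.1 hK).2.le
      _ ≤ ((p₀ : ℝ) * (B : ℝ) ^ L) * (θ₀ * n) := by
          rw [nsmul_eq_mul]
          gcongr
          have h : light.card ≤ p₀ * B ^ L := by
            calc light.card ≤ (Z ×ˢ Finset.range (B ^ L)).card := by
                  refine Finset.card_le_card fun K hK => ?_
                  obtain ⟨x, hx, rfl⟩ := Finset.mem_image.1 (Finset.mem_filter.1 hK).1
                  exact Finset.mem_product.2 ⟨(Finset.mem_filter.1 hx).2.1,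
                    Finset.mem_range.2 (node_lt hB L x)⟩
              _ ≤ _ := by rw [Finset.card_product, Finset.card_range]; gcongr
          exact_mod_cast h
      _ ≤ _ := by nlinarith
  refine ⟨τ, fun x => cQ (τ x), X1 \ Xl, ?_, ?_, fun x y h => congrArg cQ h, ?_, ?_⟩
  · refine (Finset.card_le_card fun K hK => ?_).trans hZc
    obtain ⟨x, hx, rfl⟩ := Finset.mem_image.1 hK
    exact (Finset.mem_filter.1 (Finset.mem_sdiff.1 hx).1).2.1
  · have hsub : (univ : Finset (Fin n)) \ (X1 \ Xl) ⊆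
        (univ.filter fun x => τ x ∉ Z) ∪ Xs ∪ Xf ∪ Xl := by
      intro x hx
      simp only [hX1, Finset.mem_sdiff, mem_univ, true_and, Finset.mem_filter, not_and,
        not_not] at hx
      simp only [Finset.mem_union, Finset.mem_filter, mem_univ, true_and]
      by_contra hc
      push Not at hc
      exact hc.2 (hx ⟨hc.1.1.1, hc.1.1.2, hc.1.2⟩)
    have h := Finset.card_le_card hsub
    have h' := h.trans ((Finset.card_union_le _ _).trans (Nat.add_le_add_right
      ((Finset.card_union_le _ _).trans (Nat.add_le_add_right (Finset.card_union_le _ _) _)) _))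
    have : ((((univ : Finset (Fin n)) \ (X1 \ Xl)).card : ℕ) : ℝ) ≤
        ((univ.filter fun x => τ x ∉ Z).card : ℝ) + Xs.card + Xf.card + Xl.card := by
      exact_mod_cast h'
    linarith
  · intro x hx
    obtain ⟨hxZ, hxs, hxf⟩ := (Finset.mem_filter.1 (Finset.mem_sdiff.1 hx).1).2
    have hns : τ x ∈ Z \ small := Finset.mem_sdiff.2 ⟨hxZ, fun h =>
      hxs (Finset.mem_biUnion.2 ⟨τ x, h, by simp [cls]⟩)⟩
    by_contra hfar
    push Not at hfar
    refine hxf (Finset.mem_biUnion.2 ⟨τ x, hns, ?_⟩)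
    have hmem := (hcQ (τ x) ⟨x, by simp [cls]⟩).1
    simp only [cls, Finset.mem_filter, mem_univ, true_and] at hmem
    simp only [far, cls, Finset.mem_filter, mem_univ, true_and, hmem]
    exact rowDist_comm A x (cQ (τ x)) ▸ hfar
  · intro x hx
    obtain ⟨hx1, hxl⟩ := Finset.mem_sdiff.1 hx
    have hheavy : θ₀ * n ≤ ((X1.filter fun z => key z = key x).card : ℝ) := by
      by_contra h
      exact hxl (Finset.mem_biUnion.2 ⟨key x,
        Finset.mem_filter.2 ⟨Finset.mem_image_of_mem _ hx1, not_le.1 h⟩,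
        Finset.mem_filter.2 ⟨hx1, rfl⟩⟩)
    refine hheavy.trans ?_
    have hsub : (X1.filter fun z => key z = key x) ⊆ cell B (X1 \ Xl) τ L x := by
      intro z hz
      obtain ⟨hz1, hzk⟩ := Finset.mem_filter.1 hz
      simp only [hkey, Prod.mk.injEq] at hzk
      refine Finset.mem_filter.2 ⟨Finset.mem_sdiff.2 ⟨hz1, fun hzl => ?_⟩, hzk⟩
      obtain ⟨K, hK, hzK⟩ := Finset.mem_biUnion.1 hzl
      refine hxl (Finset.mem_biUnion.2 ⟨K, hK, Finset.mem_filter.2 ⟨hx1, ?_⟩⟩)
      rw [← (Finset.mem_filter.1 hzK).2]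
      simp [hkey, hzk]
    exact_mod_cast Finset.card_le_card hsub

end Vale.Agent.P037
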