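import Mathlib

/-! Deleting few positions of a string so that every surviving word is found robustly. -/

namespace Vale.Agent.P037

open Finset

variable {n : ℕ} {β : Type*} [DecidableEq β]

lemma word_segments (τ : Fin n → β) (h : ℕ) (hh : 1 ≤ h) :
    ∀ (k : ℕ) (u : Fin k → β) (lo : ℕ),
    ∃ (D : Finset (Fin n)) (F : Finset (Finset (Fin n))),
      D.card ≤ k * h ∧ F.card ≤ k ∧ (∀ G ∈ F, h ≤ G.card) ∧
      ∀ y : Fin k → Fin n, Monotone y → (∀ i, τ (y i) = u i) → (∀ i, lo ≤ (y i).val) →
        (∀ i, y i ∉ D) → ∀ T : Finset (Fin n), (∀ G ∈ F, ∃ t ∈ G, t ∈ T) →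
        ∃ y' : Fin k → Fin n, StrictMono y' ∧
          ∀ i, τ (y' i) = u i ∧ y' i ∈ T ∧ lo ≤ (y' i).val := by
  intro k
  induction k with
  | zero =>
    intro u lo
    exact ⟨∅, ∅, by simp, by simp, by simp,
      fun y _ _ _ _ _ _ => ⟨y, fun i => i.elim0, fun i => i.elim0⟩⟩
  | succ k ih =>
    intro u lo
    set occ := univ.filter fun y : Fin n => τ y = u 0 ∧ lo ≤ y.val with hocc
    by_cases hsmall : occ.card < h
    · refine ⟨occ, ∅, ?_, by simp, by simp, ?_⟩
      · exact hsmall.le.trans (Nat.le_mul_of_pos_left h (Nat.succ_pos k))
      · intro y _ hu hlo hD _ _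
        exact absurd (by simp [hocc, hu 0, hlo 0]) (hD 0)
    push Not at hsmall
    obtain ⟨g, hg, hmin⟩ : ∃ g, h ≤ (occ.filter fun y => y.val < g).card ∧
        ∀ g' < g, (occ.filter fun y => y.val < g').card < h := by
      have hex : ∃ g, h ≤ (occ.filter fun y => y.val < g).card :=
        ⟨n, hsmall.trans (le_of_eq (by rw [Finset.filter_true_of_mem fun y _ => y.isLt]))⟩
      exact ⟨Nat.find hex, Nat.find_spec hex, fun g' hg' => not_le.1 (Nat.find_min hex hg')⟩
    set seg := occ.filter fun y => y.val < g with hseg
    have hsegle : seg.card ≤ h := by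
      rcases g with _ | g
      · simp [hseg]
      · have h1 := hmin g (Nat.lt_succ_self g)
        have h2 : seg.card ≤ (occ.filter fun y => y.val < g).card + 1 := by
          have h3 : seg ⊆ (occ.filter fun y => y.val < g) ∪
              occ.filter fun y => y.val = g := by
            intro y hy
            simp only [hseg, Finset.mem_filter, Finset.mem_union] at hy ⊢
            rcases Nat.lt_succ_iff_lt_or_eq.1 hy.2 with h' | h'
            · exact Or.inl ⟨hy.1, h'⟩
            · exact Or.inr ⟨hy.1, h'⟩
          have h4 : (occ.filter fun y => y.val = g).card ≤ 1 := by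
            rw [Finset.card_le_one]
            intro a ha b hb
            simp only [Finset.mem_filter] at ha hb
            exact Fin.ext (ha.2.trans hb.2.symm)
          have := (Finset.card_le_card h3).trans (Finset.card_union_le _ _)
          omega
        omega
    have hlog : lo ≤ g := by
      by_contra hlt
      push Not at hlt
      have : seg = ∅ := by
        rw [Finset.eq_empty_iff_forall_notMem]
        intro y hy
        simp only [hseg, hocc, Finset.mem_filter] at hy
        omega
      rw [this] at hg
      simp at hg
      omega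
    obtain ⟨D, F, hDc, hFc, hFh, hprop⟩ := ih (fun i => u i.succ) g
    refine ⟨seg ∪ D, insert seg F, ?_, ?_, ?_, ?_⟩
    · calc (seg ∪ D).card ≤ seg.card + D.card := Finset.card_union_le _ _
        _ ≤ h + k * h := Nat.add_le_add hsegle hDc
        _ = (k + 1) * h := by ring
    · exact (Finset.card_insert_le _ _).trans (by omega)
    · intro G hG
      rcases Finset.mem_insert.1 hG with rfl | hG
      · exact hg
      · exact hFh G hG
    · intro y hy hu hlo hD T hT
      have hy0 : g ≤ (y 0).val := by
        by_contra hlt
        exact hD 0 (Finset.mem_union_left _ (by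
          simp [hseg, hocc, hu 0, hlo 0]; omega))
      obtain ⟨y', hy', hyp⟩ := hprop (fun i => y i.succ)
        (fun i j hij => hy (Fin.succ_le_succ_iff.2 hij)) (fun i => hu i.succ)
        (fun i => hy0.trans (hy (Fin.zero_le i.succ)))
        (fun i hi => hD i.succ (Finset.mem_union_right _ hi))
        T (fun G hG => hT G (Finset.mem_insert_of_mem hG))
      obtain ⟨t, htseg, htT⟩ := hT seg (Finset.mem_insert_self _ _)
      simp only [hseg, hocc, Finset.mem_filter, mem_univ, true_and] at htseg
      refine ⟨Fin.cases t y', ?_, ?_⟩
      · intro i j hij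
        induction j using Fin.cases with
        | zero => exact absurd hij (by simp [Fin.lt_def])
        | succ j =>
          induction i using Fin.cases with
          | zero =>
            show t < y' j
            exact Fin.lt_def.2 (lt_of_lt_of_le htseg.2 (hyp j).2.2)
          | succ i => exact hy' (Fin.succ_lt_succ_iff.1 hij)
      · intro i
        induction i using Fin.cases with
        | zero => exact ⟨htseg.1.1, htT, htseg.1.2⟩
        | succ i => exact ⟨(hyp i).1, (hyp i).2.1, hlog.trans (hyp i).2.2⟩

end Vale.Agent.P037
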