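import Mathlib
import Vale.Agent.P037.Rows
import Vale.Agent.P037.Pick
import Vale.Agent.P037.Words

/-! The repaired matrix is `H`-free and close to `A`. -/

namespace Vale.Agent.P037

open Finset

variable {n k : ℕ}

lemma exists_retraction (S : Finset (Fin n)) (hS : S.Nonempty) :
    ∃ f : Fin n → Fin n, Monotone f ∧ (∀ x, f x ∈ S) ∧ ∀ x ∈ S, f x = x := by
  refine ⟨fun x => if h : (S.filter fun z => z ≤ x).Nonempty
    then (S.filter fun z => z ≤ x).max' h else S.min' hS, ?_, ?_, ?_⟩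
  · intro x y hxy
    simp only
    by_cases hx : (S.filter fun z => z ≤ x).Nonempty
    · have hsub : (S.filter fun z => z ≤ x) ⊆ S.filter fun z => z ≤ y := fun z hz => by
        simp only [Finset.mem_filter] at hz ⊢
        exact ⟨hz.1, hz.2.trans hxy⟩
      rw [dif_pos hx, dif_pos (hx.mono hsub)]
      exact Finset.max'_subset hx hsub
    · rw [dif_neg hx]
      split
      · exact S.min'_le _ (Finset.mem_filter.1 (Finset.max'_mem _ _)).1
      · exact le_rfl
  · intro x
    simp only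
    split
    · exact (Finset.mem_filter.1 (Finset.max'_mem _ _)).1
    · exact S.min'_mem hS
  · intro x hx
    simp only
    have hmem : x ∈ S.filter fun z => z ≤ x := Finset.mem_filter.2 ⟨hx, le_rfl⟩
    rw [dif_pos ⟨x, hmem⟩]
    exact le_antisymm ((Finset.mem_filter (p := fun z => z ≤ x)).1 (Finset.max'_mem _ ⟨x, hmem⟩)).2
      (Finset.le_max' _ _ hmem)

/-- Increasing rows of prescribed colours exist in `S` at a level free for all colours. -/
lemma exists_row_lift (H : Fin k → Fin k → Bool) {B a b D r : ℕ} (A : Fin n → Fin n → Bool)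
    (hkB : k ≤ B) (hB : 0 < B) (hwin : k * D < b - a)
    (S T : Finset (Fin n)) (hfree : NoCopy H A S T) (hgood : ¬ BadChoice H B a b D A S T r)
    (x ρ : Fin k → Fin n) (hx : Monotone x) (hρ : ∀ i, ρ i ∈ S)
    (hnode : ∀ i, node B n b (ρ i) = node B n a (x i) * B ^ (b - a) + r) :
    ∃ s : Fin k → Fin n, StrictMono s ∧
      ∀ i, s i ∈ S ∧ rowType A T (s i) = rowType A T (ρ i) := by
  classical
  let P : Fin k → Finset ℕ := fun i => leaves B b A S T (rowType A T (ρ i))
  have hcrit : ∀ i, critCount B b (P i) (node B n b (ρ i)) < D := by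
    intro i
    by_contra hc
    push Not at hc
    refine hgood ⟨hfree, node B n a (x i), node_lt hB a _, rowType A T (ρ i),
      Finset.mem_image_of_mem _ (hρ i), ?_, ?_⟩
    · rw [← hnode i]
      exact Finset.mem_image.2 ⟨ρ i, Finset.mem_filter.2 ⟨hρ i, rfl⟩, rfl⟩
    · rw [← hnode i]; exact hc
  obtain ⟨ℓ, hal, hlb, hfr⟩ := exists_free_level (a := a) P (fun i => node B n b (ρ i)) hcrit hwin
  have hex : ∀ i : Fin k, ∃ z ∈ S, rowType A T z = rowType A T (ρ i) ∧
      node B n b z / B ^ (b - ℓ - 1) = node B n b (ρ i) / B ^ (b - ℓ) * B + i.val := by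
    intro i
    have := hfr i
    simp only [Crit, not_exists, not_and, not_forall, not_not] at this
    obtain ⟨w, hw, hwe⟩ := this i.val (i.isLt.trans_le hkB)
    obtain ⟨z, hz, rfl⟩ := Finset.mem_image.1 hw
    exact ⟨z, (Finset.mem_filter.1 hz).1, (Finset.mem_filter.1 hz).2, hwe⟩
  choose s hsS hscol hsnode using hex
  refine ⟨s, ?_, fun i => ⟨hsS i, hscol i⟩⟩
  intro i j hij
  by_contra hle
  push Not at hle
  have h1 : node B n b (s j) / B ^ (b - ℓ - 1) ≤ node B n b (s i) / B ^ (b - ℓ - 1) :=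
    Nat.div_le_div_right (node_mono hle)
  have h2 : node B n b (ρ i) / B ^ (b - ℓ) ≤ node B n b (ρ j) / B ^ (b - ℓ) := by
    refine Nat.div_le_div_right ?_
    rw [hnode i, hnode j]
    exact Nat.add_le_add_right (Nat.mul_le_mul_right _ (node_mono (hx hij.le))) _
  rw [hsnode i, hsnode j] at h1
  have h3 : i.val < j.val := hij
  have h4 := Nat.mul_le_mul_right B h2
  omega

lemma not_far_of_window (hn : 0 < n) (hk : 1 ≤ k) (H : Fin k → Fin k → Bool)
    (A : Fin n → Fin n → Bool) {ε η : ℝ} (hη : 0 < η) (hεη : 17 * η ≤ ε) (hε1 : ε < 1)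
    (hfar : IsFar H A ε) {d : ℕ}
    (hd' : ∀ S T : Finset (Fin n), NoCopy H A S T →
      (T.image (rowType (fun x y => A y x) S)).card ≤ (S.card + 1) ^ d)
    {β : Type*} [DecidableEq β] (Q : Fin n → β) (ctr : Fin n → Fin n) (X : Finset (Fin n))
    {p₀ : ℕ} (hXQ : (X.image Q).card ≤ p₀)
    (hXcard : (((univ : Finset (Fin n)) \ X).card : ℝ) ≤ 5 * η * n)
    (hctr : ∀ x y, Q x = Q y → ctr x = ctr y)
    (hclose : ∀ x ∈ X, (rowDist A x (ctr x) : ℝ) ≤ η * n)
    {B a b L : ℕ} (hkB : k < B) (hbL : b ≤ L)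
    {D p₁ qT : ℕ} (hwin : k * D < b - a) (S : Finset (Fin n)) (r : ℕ)
    (hlost : ((lost B X Q a b r).card : ℝ) ≤ 4 * η * n)
    (hmeet : ∀ x ∈ X, ∃ z ∈ cell B X Q L x, z ∈ S)
    (hg1 : pr (fun s : Fin (p₁ + 1) → Fin n => ¬ NoCopy H A S (valSet s)) ≤ η)
    (hg2 : pr (fun t : Fin qT → Fin n => ¬ NoCopy H A S (valSet t)) ≤ 1 / 4)
    (hg3 : pr (fun t : Fin qT → Fin n => BadChoice H B a b D A S (valSet t) r) ≤ 1 / 4)
    {θ₁ : ℝ} (hθ0 : 0 < θ₁) (hθ1 : θ₁ ≤ 1) (hθn : 1 ≤ θ₁ * n)
    (hp₁ : ((p₀ : ℝ) * (B : ℝ) ^ a + 1) ^ d ≤ η * (p₁ + 1))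
    (hdel : (p₁ : ℝ) ^ k * k * (2 * θ₁) ≤ η)
    (hmiss : (p₁ : ℝ) ^ k * k * (1 - θ₁) ^ qT ≤ 1 / 4) : False := by
  classical
  have hn' : (0 : ℝ) < n := by exact_mod_cast hn
  have hB : 0 < B := by omega
  set Xr := X \ lost B X Q a b r with hXr
  let key : Fin n → β × ℕ := fun x => (Q x, node B n a x)
  have hrep : ∀ K : β × ℕ, ∃ z : Fin n, (∃ x ∈ Xr, key x = K) →
      z ∈ X ∧ z ∈ S ∧ Q z = K.1 ∧ node B n b z = K.2 * B ^ (b - a) + r := by
    intro K
    by_cases h : ∃ x ∈ Xr, key x = K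
    · obtain ⟨x, hx, rfl⟩ := h
      obtain ⟨hxX, hxl⟩ := Finset.mem_sdiff.1 hx
      simp only [lost, Finset.mem_filter, not_and, not_not] at hxl
      obtain ⟨x', hx', hQ, hnode⟩ := hxl hxX
      obtain ⟨z, hz, hzS⟩ := hmeet x' hx'
      obtain ⟨hzX, hzQ, hzn⟩ := Finset.mem_filter.1 hz
      refine ⟨z, fun _ => ⟨hzX, hzS, hzQ.trans hQ, ?_⟩⟩
      rw [← node_div hB hbL z, hzn, node_div hB hbL x', hnode]
    · exact ⟨⟨0, hn⟩, fun h' => absurd h' h⟩
  choose rp hrp using hrep
  let rep : Fin n → Fin n := fun x => rp (key x)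
  have hreps : ∀ x ∈ Xr, rep x ∈ X ∧ rep x ∈ S ∧ Q (rep x) = Q x ∧
      node B n b (rep x) = node B n a x * B ^ (b - a) + r := fun x hx => hrp _ ⟨x, hx, rfl⟩
  set Sr := Xr.image rep with hSr
  have hSrS : Sr ⊆ S := fun z hz => by
    obtain ⟨x, hx, rfl⟩ := Finset.mem_image.1 hz
    exact (hreps x hx).2.1
  have hSrcard : Sr.card ≤ p₀ * B ^ a := by
    calc Sr.card ≤ (((X.image Q) ×ˢ Finset.range (B ^ a)).image rp).card := by
          refine Finset.card_le_card fun z hz => ?_
          obtain ⟨x, hx, rfl⟩ := Finset.mem_image.1 hz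
          exact Finset.mem_image.2 ⟨key x, Finset.mem_product.2
            ⟨Finset.mem_image_of_mem _ (Finset.mem_sdiff.1 hx).1,
              Finset.mem_range.2 (node_lt hB a x)⟩, rfl⟩
      _ ≤ ((X.image Q) ×ˢ Finset.range (B ^ a)).card := Finset.card_image_le
      _ ≤ _ := by rw [Finset.card_product, Finset.card_range]; gcongr
  -- column letters
  set τ : Fin n → Finset (Fin n) := rowType (fun x y => A y x) Sr with hτ
  obtain ⟨Z, hZc, hZ⟩ := exists_cover (p := p₁) (M := (p₀ * B ^ a + 1) ^ d) hn τ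
  have hY0 : ((univ.filter fun y => τ y ∉ Z).card : ℝ) ≤ 2 * η * n := by
    refine hZ.trans ?_
    gcongr
    have h1 : (((p₀ * B ^ a + 1) ^ d : ℕ) : ℝ) / (p₁ + 1) ≤ η := by
      rw [div_le_iff₀ (by positivity)]; push_cast; linarith
    have h2 : pr (fun s : Fin (p₁ + 1) → Fin n =>
        (p₀ * B ^ a + 1) ^ d < (univ.image (τ ∘ s)).card) ≤ η := by
      refine le_trans (pr_mono fun s hs hfree => ?_) hg1
      have h := hd' Sr (valSet s) (hfree.mono hSrS Finset.Subset.rfl)
      have e : univ.image (τ ∘ s) = (valSet s).image τ := Finset.image_image.symm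
      rw [e] at hs
      exact absurd (h.trans (Nat.pow_le_pow_left (Nat.succ_le_succ hSrcard) d)) (not_le.2 hs)
    linarith
  set h := ⌈θ₁ * n⌉₊ with hh
  have hh1 : 1 ≤ h := Nat.ceil_pos.2 (by positivity)
  have hseg := fun u : Fin k → Finset (Fin n) => word_segments τ h hh1 k u 0
  choose Du Fu hDu hFu hFh hprop using hseg
  set W := Fintype.piFinset fun _ : Fin k => Z with hW
  have hWc : W.card ≤ p₁ ^ k := by
    rw [hW, Fintype.card_piFinset_const]; gcongr
  set Ydel := (univ.filter fun y => τ y ∉ Z) ∪ W.biUnion Du with hYdel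
  have hYc : (Ydel.card : ℝ) ≤ 3 * η * n := by
    have h1 : ((W.biUnion Du).card : ℝ) ≤ η * n := by
      have e1 : ((W.biUnion Du).card : ℝ) ≤ ((p₁ ^ k * (k * h) : ℕ) : ℝ) := by
        exact_mod_cast (Finset.card_biUnion_le_card_mul _ _ (k * h) fun u _ => hDu u).trans
          (Nat.mul_le_mul_right _ hWc)
      refine e1.trans ?_
      push_cast
      have e2 : (h : ℝ) ≤ 2 * θ₁ * n := by
        have := Nat.ceil_lt_add_one (show 0 ≤ θ₁ * n by positivity)
        rw [← hh] at this
        linarith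
      calc (p₁ : ℝ) ^ k * (k * h) ≤ (p₁ : ℝ) ^ k * (k * (2 * θ₁ * n)) := by gcongr
        _ = ((p₁ : ℝ) ^ k * k * (2 * θ₁)) * n := by ring
        _ ≤ _ := by gcongr
    have h2 := Finset.card_union_le (univ.filter fun y => τ y ∉ Z) (W.biUnion Du)
    have h3 : (Ydel.card : ℝ) ≤ ((univ.filter fun y => τ y ∉ Z).card : ℝ) +
        (W.biUnion Du).card := by exact_mod_cast h2
    linarith
  -- the column sample
  have : Nonempty (Fin n) := ⟨⟨0, hn⟩⟩
  obtain ⟨t, ht⟩ : ∃ t : Fin qT → Fin n,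
      ¬ ((¬ NoCopy H A S (valSet t) ∨ BadChoice H B a b D A S (valSet t) r) ∨
        ∃ G ∈ W.biUnion Fu, ∀ i, t i ∉ G) := by
    refine exists_not_of_pr_lt_one ?_
    have h1 : pr (fun t : Fin qT → Fin n => ∃ G ∈ W.biUnion Fu, ∀ i, t i ∉ G) ≤ 1 / 4 := by
      refine (pr_exists_finset _ _).trans ((Finset.sum_le_card_nsmul _ _ ((1 - θ₁) ^ qT)
        fun G hG => ?_).trans (le_trans ?_ hmiss))
      · obtain ⟨u, _, hG⟩ := Finset.mem_biUnion.1 hG
        refine pr_miss_le hn G ((Nat.le_ceil _).trans ?_)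
        exact_mod_cast hFh u G hG
      · rw [nsmul_eq_mul]
        gcongr
        exact_mod_cast (Finset.card_biUnion_le_card_mul _ _ k fun u _ => hFu u).trans
          (Nat.mul_le_mul_right _ hWc)
    have h2 := pr_or (fun t : Fin qT → Fin n =>
      ¬ NoCopy H A S (valSet t) ∨ BadChoice H B a b D A S (valSet t) r)
      fun t => ∃ G ∈ W.biUnion Fu, ∀ i, t i ∉ G
    have h3 := pr_or (fun t : Fin qT → Fin n => ¬ NoCopy H A S (valSet t))
      fun t => BadChoice H B a b D A S (valSet t) r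
    linarith
  push Not at ht
  obtain ⟨⟨hfreeT, hgoodT⟩, hhit⟩ := ht
  -- retractions to the surviving rows and columns
  have hXrc : (((univ : Finset (Fin n)) \ Xr).card : ℝ) ≤ 9 * η * n := by
    have : ((univ : Finset (Fin n)) \ Xr) ⊆ ((univ : Finset (Fin n)) \ X) ∪ lost B X Q a b r := by
      intro x hx
      simp only [hXr, Finset.mem_sdiff, mem_univ, true_and, not_and, not_not,
        Finset.mem_union] at hx ⊢
      by_cases hxX : x ∈ X
      · exact Or.inr (hx hxX)
      · exact Or.inl hxX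
    have h1 := (Finset.card_le_card this).trans (Finset.card_union_le _ _)
    have h2 : (((univ : Finset (Fin n)) \ Xr).card : ℝ) ≤
        (((univ : Finset (Fin n)) \ X).card : ℝ) + (lost B X Q a b r).card := by exact_mod_cast h1
    linarith
  have hsmall : ∀ s : Finset (Fin n), (s.card : ℝ) ≤ 9 * η * n → ((univ : Finset (Fin n)) \ s).Nonempty := by
    intro s hs
    rw [← Finset.card_pos, Finset.card_univ_sdiff, Fintype.card_fin]
    have : s.card < n := by
      have : (s.card : ℝ) < n := hs.trans_lt (by nlinarith)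
      exact_mod_cast this
    omega
  have hXrne : Xr.Nonempty := by
    have := hsmall _ hXrc
    rwa [Finset.sdiff_sdiff_eq_self (Finset.subset_univ _)] at this
  have hYne : ((univ : Finset (Fin n)) \ Ydel).Nonempty := hsmall _ (by nlinarith)
  obtain ⟨φ, hφm, hφS, hφid⟩ := exists_retraction Xr hXrne
  obtain ⟨ψ, hψm, hψS, hψid⟩ := exists_retraction _ hYne
  set A' : Fin n → Fin n → Bool := fun x y => A (rep (φ x)) (ψ y) with hA'
  have hfree' : IsFree H A' := by
    rintro x y ⟨hx, hy, hxy⟩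
    have hy1 : ∀ j, τ (ψ (y j)) ∈ Z ∧ ψ (y j) ∉ W.biUnion Du := by
      intro j
      have := (Finset.mem_sdiff.1 (hψS (y j))).2
      simp only [hYdel, Finset.mem_union, Finset.mem_filter, mem_univ, true_and, not_or,
        not_not] at this
      exact this
    set u : Fin k → Finset (Fin n) := fun j => τ (ψ (y j)) with hu
    have huW : u ∈ W := Fintype.mem_piFinset.2 fun j => (hy1 j).1
    obtain ⟨y', hy'm, hy'⟩ := hprop u (fun j => ψ (y j)) (fun i j hij => hψm (hy.monotone hij))
      (fun j => rfl) (fun j => Nat.zero_le _)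
      (fun j hj => (hy1 j).2 (Finset.mem_biUnion.2 ⟨u, huW, hj⟩))
      (valSet t) (fun G hG => by
        obtain ⟨i, hi⟩ := hhit G (Finset.mem_biUnion.2 ⟨u, huW, hG⟩)
        exact ⟨t i, hi, (mem_valSet t).2 ⟨i, rfl⟩⟩)
    obtain ⟨s, hsm, hs⟩ := exists_row_lift H A hkB.le hB hwin S (valSet t) hfreeT hgoodT
      (fun i => φ (x i)) (fun i => rep (φ (x i))) (fun i j hij => hφm (hx.monotone hij))
      (fun i => (hreps _ (hφS _)).2.1) (fun i => (hreps _ (hφS _)).2.2.2)
    refine hfreeT s y' hsm hy'm (fun i => (hs i).1) (fun j => (hy' j).2.1) fun i j => ?_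
    rw [eq_of_rowType_eq (hs i).2 (hy' j).2.1, ← hxy i j, hA']
    have hmem : rep (φ (x i)) ∈ Sr := Finset.mem_image_of_mem _ (hφS _)
    exact eq_of_rowType_eq (A := fun x y => A y x) (hy' j).1 hmem
  have hbound := hfar A' hfree'
  have hsum : ((univ.filter fun p : Fin n × Fin n => A p.1 p.2 ≠ A' p.1 p.2).card : ℝ) ≤
      9 * η * n * n + n * (3 * η * n) + n * (2 * η * n) := by
    let R1 := ((univ : Finset (Fin n)) \ Xr) ×ˢ (univ : Finset (Fin n))
    let R2 := (univ : Finset (Fin n)) ×ˢ Ydel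
    let R3 := (univ : Finset (Fin n)).biUnion fun x =>
      if x ∈ Xr then ({x} : Finset (Fin n)) ×ˢ (univ.filter fun y => A x y ≠ A (rep x) y) else ∅
    have hsub : (univ.filter fun p : Fin n × Fin n => A p.1 p.2 ≠ A' p.1 p.2) ⊆ R1 ∪ R2 ∪ R3 := by
      rintro ⟨x, y⟩ hp
      simp only [Finset.mem_filter, mem_univ, true_and, hA'] at hp
      simp only [R1, R2, R3, Finset.mem_union, Finset.mem_product, mem_univ, Finset.mem_sdiff,
        true_and, and_true, Finset.mem_biUnion]
      by_cases hxr : x ∈ Xr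
      · by_cases hyd : y ∈ Ydel
        · exact Or.inl (Or.inr hyd)
        · refine Or.inr ⟨x, ?_⟩
          rw [if_pos hxr]
          simp only [Finset.mem_product, Finset.mem_singleton, Finset.mem_filter, mem_univ,
            true_and]
          rwa [hφid x hxr, hψid y (Finset.mem_sdiff.2 ⟨mem_univ _, hyd⟩)] at hp
      · exact Or.inl (Or.inl hxr)
    have hR3 : (R3.card : ℝ) ≤ n * (2 * η * n) := by
      calc (R3.card : ℝ) ≤ ∑ x : Fin n, ((if x ∈ Xr then ({x} : Finset (Fin n)) ×ˢ
            (univ.filter fun y => A x y ≠ A (rep x) y) else ∅).card : ℝ) := by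
            exact_mod_cast Finset.card_biUnion_le
        _ ≤ ∑ _x : Fin n, 2 * η * n := by
            refine Finset.sum_le_sum fun x _ => ?_
            by_cases hxr : x ∈ Xr
            · rw [if_pos hxr, Finset.card_product, Finset.card_singleton, one_mul]
              have h1 := hclose x (Finset.mem_sdiff.1 hxr).1
              have h2 := hclose (rep x) (hreps x hxr).1
              rw [hctr _ _ (hreps x hxr).2.2.1, rowDist_comm] at h2
              have h3 : (rowDist A x (rep x) : ℝ) ≤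
                  rowDist A x (ctr x) + rowDist A (ctr x) (rep x) := by
                exact_mod_cast rowDist_triangle A x (ctr x) (rep x)
              show (rowDist A x (rep x) : ℝ) ≤ _
              linarith
            · rw [if_neg hxr]; simp; positivity
        _ = _ := by simp
    have h := (Finset.card_le_card hsub).trans
      ((Finset.card_union_le _ _).trans (Nat.add_le_add_right (Finset.card_union_le _ _) _))
    have h' : ((univ.filter fun p : Fin n × Fin n => A p.1 p.2 ≠ A' p.1 p.2).card : ℝ) ≤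
        (R1.card : ℝ) + R2.card + R3.card := by exact_mod_cast h
    have hR1 : (R1.card : ℝ) ≤ 9 * η * n * n := by
      simp only [R1, Finset.card_product, Finset.card_univ, Fintype.card_fin, Nat.cast_mul]
      gcongr
    have hR2 : (R2.card : ℝ) ≤ n * (3 * η * n) := by
      simp only [R2, Finset.card_product, Finset.card_univ, Fintype.card_fin, Nat.cast_mul]
      gcongr
    linarith
  have hnn : (0 : ℝ) < (n : ℝ) ^ 2 := by positivity
  nlinarith [mul_pos hη hnn]

end Vale.Agent.P037
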