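import Mathlib
import Vale.Agent.P037.Core

/-! The choice of the parameters. -/

namespace Vale.Agent.P037

open Finset

lemma pow_two_le {a b : ℕ} (h : a ≤ b) : (2 : ℝ) ^ a ≤ (2 : ℝ) ^ b :=
  pow_le_pow_right₀ (by norm_num) h

lemma one_sub_pow_le (E t : ℕ) :
    (1 - 1 / (2 : ℝ) ^ E) ^ (2 ^ E * t) ≤ 1 / (2 : ℝ) ^ t := by
  have h0 : (0 : ℝ) ≤ 1 - 1 / (2 : ℝ) ^ E := by
    rw [sub_nonneg, div_le_one (by positivity)]; exact one_le_pow₀ (by norm_num)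
  have h1 : (1 - 1 / (2 : ℝ) ^ E) ^ (2 ^ E) ≤ 1 / 2 := by
    have h : (1 - 1 / ((2 ^ E : ℕ) : ℝ)) ^ (2 ^ E) ≤ Real.exp (-1) :=
      Real.one_sub_div_pow_le_exp_neg (by exact_mod_cast Nat.one_le_two_pow)
    push_cast at h
    refine h.trans ?_
    rw [Real.exp_neg, inv_le_comm₀ (Real.exp_pos _) (by norm_num)]
    have := Real.add_one_le_exp (1 : ℝ)
    linarith
  rw [pow_mul]
  exact (pow_le_pow_left₀ (pow_nonneg h0 _) h1 _).trans_eq (one_div_pow _ _)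

lemma one_sub_inv_pow_le (B t : ℕ) (hB : 1 ≤ B) :
    (1 - 1 / (B : ℝ)) ^ (B * t) ≤ 1 / (2 : ℝ) ^ t := by
  have hB0 : (1 : ℝ) ≤ B := by exact_mod_cast hB
  have h0 : (0 : ℝ) ≤ 1 - 1 / (B : ℝ) := by
    rw [sub_nonneg, div_le_one (by linarith)]; exact hB0
  have h1 : (1 - 1 / (B : ℝ)) ^ B ≤ 1 / 2 := by
    refine (Real.one_sub_div_pow_le_exp_neg hB0).trans ?_
    rw [Real.exp_neg, inv_le_comm₀ (Real.exp_pos _) (by norm_num)]
    have := Real.add_one_le_exp (1 : ℝ)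
    linarith
  rw [pow_mul]
  exact (pow_le_pow_left₀ (pow_nonneg h0 _) h1 _).trans_eq (one_div_pow _ _)

lemma div_pow_two_le {a b c : ℕ} (h : a + c ≤ b) :
    (2 : ℝ) ^ a * (1 / (2 : ℝ) ^ b) ≤ 1 / (2 : ℝ) ^ c := by
  rw [mul_one_div, div_le_div_iff₀ (by positivity) (by positivity), one_mul, ← pow_add]
  exact pow_two_le h

lemma succ_pow_le {x : ℝ} {E d : ℕ} (hx0 : 0 ≤ x) (hx : x ≤ (2 : ℝ) ^ E) :
    (x + 1) ^ d ≤ (2 : ℝ) ^ ((E + 1) * d) := by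
  rw [pow_mul]
  refine pow_le_pow_left₀ (by linarith) ?_ d
  have : (1 : ℝ) ≤ (2 : ℝ) ^ E := one_le_pow₀ (by norm_num)
  rw [pow_succ]; linarith

lemma B_pow_le (k a : ℕ) : ((k + 1 : ℕ) : ℝ) ^ a ≤ (2 : ℝ) ^ (k * a) := by
  rw [pow_mul]
  refine pow_le_pow_left₀ (by positivity) ?_ a
  exact_mod_cast Nat.lt_two_pow_self

/-- The depths of the windows. -/
def depth (C₁ e : ℕ) : ℕ → ℕ
  | 0 => 0
  | i + 1 => C₁ * (depth C₁ e i + e)

lemma depth_mono {C₁ : ℕ} (hC : 1 ≤ C₁) (e : ℕ) : Monotone (depth C₁ e) :=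
  monotone_nat_of_le_succ fun i => by
    show depth C₁ e i ≤ C₁ * (depth C₁ e i + e)
    exact (Nat.le_add_right _ e).trans (Nat.le_mul_of_pos_left _ hC)

lemma depth_le (C₁ e : ℕ) : ∀ i, depth C₁ e i + e ≤ (C₁ + 1) ^ i * e
  | 0 => by simp [depth]
  | i + 1 => by
    have h := depth_le C₁ e i
    have h1 : e ≤ depth C₁ e i + e := Nat.le_add_left _ _
    calc depth C₁ e (i + 1) + e = C₁ * (depth C₁ e i + e) + e := rfl
      _ ≤ C₁ * (depth C₁ e i + e) + (depth C₁ e i + e) := by omega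
      _ = (C₁ + 1) * (depth C₁ e i + e) := by ring
      _ ≤ (C₁ + 1) * ((C₁ + 1) ^ i * e) := Nat.mul_le_mul_left _ h
      _ = _ := by ring

lemma eta_eq (e c : ℕ) : 1 / (2 : ℝ) ^ (e + c) = 1 / (2 : ℝ) ^ e / (2 : ℝ) ^ c := by
  rw [pow_add, div_div]

lemma mul_le_two_pow {x c : ℕ} (h : c ≤ x) : c * x ≤ 2 ^ (2 * x) := by
  calc c * x ≤ x * x := Nat.mul_le_mul_right _ h
    _ ≤ 2 ^ x * 2 ^ x := Nat.mul_le_mul Nat.lt_two_pow_self.le Nat.lt_two_pow_self.le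
    _ = _ := by rw [← pow_add]; congr 1; omega

lemma prod_pow_le {x y : ℝ} {Ex Ey k : ℕ} (hx0 : 0 ≤ x) (hy0 : 0 ≤ y) (hx : x ≤ (2 : ℝ) ^ Ex)
    (hy : y ≤ (2 : ℝ) ^ Ey) : x ^ k * y ^ k ≤ (2 : ℝ) ^ ((Ex + Ey) * k) := by
  rw [← mul_pow, pow_mul, pow_add]
  exact pow_le_pow_left₀ (mul_nonneg hx0 hy0) (mul_le_mul hx hy hy0 (by positivity)) k

lemma two_pow_succ_ge (E : ℕ) : (2 : ℝ) ^ E + 1 ≤ (2 : ℝ) ^ (E + 1) := by
  have : (1 : ℝ) ≤ (2 : ℝ) ^ E := one_le_pow₀ (by norm_num)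
  rw [pow_succ]; linarith

lemma copy_le {Nd x y : ℝ} {cδ P Ex Ey k c : ℕ} (hδ : Nd ≤ 1 / (2 : ℝ) ^ (cδ * P)) (hNd : 0 ≤ Nd)
    (hx0 : 0 ≤ x) (hy0 : 0 ≤ y) (hx : x ≤ (2 : ℝ) ^ Ex) (hy : y ≤ (2 : ℝ) ^ Ey)
    (h : (Ex + Ey) * k + c ≤ cδ * P) : x ^ k * y ^ k * Nd ≤ 1 / (2 : ℝ) ^ c :=
  (mul_le_mul (prod_pow_le hx0 hy0 hx hy) hδ hNd (by positivity)).trans (div_pow_two_le h)

lemma rows_far {c0 e : ℕ} (hc : c0 + 5 ≤ e) :
    4 * (((2 ^ (c0 * e) : ℕ) : ℝ) + 1) * (1 - 1 / (2 : ℝ) ^ e) ^ 2 ^ (3 * e) ≤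
      (1 / (2 : ℝ) ^ e) ^ 2 := by
  have h1 : (1 - 1 / (2 : ℝ) ^ e) ^ 2 ^ (3 * e) ≤ 1 / (2 : ℝ) ^ 2 ^ (2 * e) := by
    have : 2 ^ (3 * e) = 2 ^ e * 2 ^ (2 * e) := by rw [← pow_add]; congr 1; omega
    rw [this]
    exact one_sub_pow_le _ _
  have h0 : (0 : ℝ) ≤ (1 - 1 / (2 : ℝ) ^ e) ^ 2 ^ (3 * e) := by
    refine pow_nonneg ?_ _
    rw [sub_nonneg, div_le_one (by positivity)]
    exact one_le_pow₀ (by norm_num)
  have h2 : 4 * (((2 ^ (c0 * e) : ℕ) : ℝ) + 1) ≤ (2 : ℝ) ^ (c0 * e + 3) := by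
    push_cast
    have := two_pow_succ_ge (c0 * e)
    rw [show c0 * e + 3 = c0 * e + 1 + 2 by omega, pow_add _ (c0 * e + 1) 2]
    linarith
  refine (mul_le_mul h2 h1 h0 (by positivity)).trans ?_
  rw [one_div_pow, ← pow_mul, mul_comm e 2]
  refine div_pow_two_le ?_
  have := mul_le_two_pow hc
  rw [Nat.add_mul] at this
  omega

lemma rows_types {d c0 e : ℕ} (hc0 : c0 = 4 * d + 1) (he : 1 ≤ e) :
    (((2 ^ (3 * e) : ℕ) : ℝ) + 1) ^ d ≤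
      1 / (2 : ℝ) ^ e * (((2 ^ (c0 * e) : ℕ) : ℝ) + 1) := by
  push_cast
  refine (succ_pow_le (by positivity) le_rfl).trans ?_
  rw [one_div_mul_eq_div, le_div_iff₀ (by positivity), ← pow_add]
  refine (pow_two_le ?_).trans (le_add_of_nonneg_right zero_le_one)
  rw [hc0]
  have : d ≤ d * e := Nat.le_mul_of_pos_right d he
  nlinarith

lemma light_le {k c0 cL e Lv : ℕ} (hcL : cL = k + c0 + 1) :
    ((2 ^ (c0 * e) : ℕ) : ℝ) * ((k + 1 : ℕ) : ℝ) ^ Lv * (1 / (2 : ℝ) ^ (cL * (Lv + e))) ≤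
      1 / (2 : ℝ) ^ e := by
  have h : ((2 ^ (c0 * e) : ℕ) : ℝ) * ((k + 1 : ℕ) : ℝ) ^ Lv ≤ (2 : ℝ) ^ (c0 * e + k * Lv) := by
    rw [pow_add]
    exact mul_le_mul (by push_cast; exact le_rfl) (B_pow_le k Lv) (by positivity) (by positivity)
  refine (mul_le_mul_of_nonneg_right h (by positivity)).trans (div_pow_two_le ?_)
  subst hcL
  nlinarith [Nat.zero_le (c0 * Lv), Nat.zero_le (k * e)]

lemma cover_le {k c0 cL cS e Lv : ℕ} (hcS : cS = cL + 2) (he : c0 + k + 5 ≤ e) :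
    4 * (((2 ^ (c0 * e) : ℕ) : ℝ) * ((k + 1 : ℕ) : ℝ) ^ Lv *
      (1 - 1 / (2 : ℝ) ^ (cL * (Lv + e))) ^ 2 ^ (cS * (Lv + e))) ≤ 1 / 8 := by
  set P := Lv + e with hP
  have hq : 2 ^ (cS * P) = 2 ^ (cL * P) * 2 ^ (2 * P) := by
    rw [← pow_add, hcS, Nat.add_mul]
  have h1 : (1 - 1 / (2 : ℝ) ^ (cL * P)) ^ 2 ^ (cS * P) ≤ 1 / (2 : ℝ) ^ 2 ^ (2 * P) := by
    rw [hq]; exact one_sub_pow_le _ _
  have h0 : (0 : ℝ) ≤ (1 - 1 / (2 : ℝ) ^ (cL * P)) ^ 2 ^ (cS * P) := by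
    refine pow_nonneg ?_ _
    rw [sub_nonneg, div_le_one (by positivity)]; exact one_le_pow₀ (by norm_num)
  have h2 : ((2 ^ (c0 * e) : ℕ) : ℝ) * ((k + 1 : ℕ) : ℝ) ^ Lv ≤ (2 : ℝ) ^ (c0 * e + k * Lv) := by
    rw [pow_add]
    exact mul_le_mul (by push_cast; exact le_rfl) (B_pow_le k Lv) (by positivity) (by positivity)
  calc 4 * (((2 ^ (c0 * e) : ℕ) : ℝ) * ((k + 1 : ℕ) : ℝ) ^ Lv *
        (1 - 1 / (2 : ℝ) ^ (cL * P)) ^ 2 ^ (cS * P))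
      ≤ 4 * ((2 : ℝ) ^ (c0 * e + k * Lv) * (1 / (2 : ℝ) ^ 2 ^ (2 * P))) :=
        mul_le_mul_of_nonneg_left (mul_le_mul h2 h1 h0 (by positivity)) (by norm_num)
    _ ≤ 4 * (1 / (2 : ℝ) ^ 5) := by
        refine mul_le_mul_of_nonneg_left (div_pow_two_le ?_) (by norm_num)
        have h3 := mul_le_two_pow (x := P) (c := c0 + k + 5) (by omega)
        have : k * Lv ≤ k * P := Nat.mul_le_mul_left _ (by omega)
        have : c0 * e ≤ c0 * P := Nat.mul_le_mul_left _ (by omega)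
        have : 5 ≤ 5 * P := Nat.le_mul_of_pos_right 5 (by omega)
        rw [Nat.add_mul, Nat.add_mul] at h3
        omega
    _ = 1 / 8 := by norm_num

lemma bad_le {k d cq cD a e : ℕ} (hcD : cD = (cq + 1) * d + k + 5) (he : 1 ≤ e) :
    (((2 ^ (cq * (a + e)) : ℕ) : ℝ) + 1) ^ d * ((k + 1 : ℕ) : ℝ) ^ a *
      (1 - 1 / ((k + 1 : ℕ) : ℝ)) ^ ((k + 1) * (cD * (a + e))) ≤ 1 / 32 := by
  have h1 := one_sub_inv_pow_le (k + 1) (cD * (a + e)) (Nat.le_add_left _ _)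
  have h0 : (0 : ℝ) ≤ (1 - 1 / ((k + 1 : ℕ) : ℝ)) ^ ((k + 1) * (cD * (a + e))) := by
    refine pow_nonneg ?_ _
    rw [sub_nonneg, div_le_one (by positivity)]
    exact_mod_cast Nat.le_add_left 1 k
  have h2 : (((2 ^ (cq * (a + e)) : ℕ) : ℝ) + 1) ^ d * ((k + 1 : ℕ) : ℝ) ^ a ≤
      (2 : ℝ) ^ ((cq * (a + e) + 1) * d + k * a) := by
    rw [pow_add]
    exact mul_le_mul (succ_pow_le (by positivity) (by push_cast; exact le_rfl))
      (B_pow_le k a) (by positivity) (by positivity)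
  refine (mul_le_mul h2 h1 h0 (by positivity)).trans ((div_pow_two_le (c := 5) ?_).trans_eq
    (by norm_num))
  subst hcD
  have : k * a ≤ k * (a + e) := Nat.mul_le_mul_left _ (Nat.le_add_right _ _)
  have : d ≤ d * (a + e) := Nat.le_mul_of_pos_right d (by omega)
  nlinarith

lemma cols_types {k d' c0 c1 a e : ℕ} (hc1 : c1 = (k + c0 + 1) * d' + 1) (he : 1 ≤ e) :
    (((2 ^ (c0 * e) : ℕ) : ℝ) * ((k + 1 : ℕ) : ℝ) ^ a + 1) ^ d' ≤
      1 / (2 : ℝ) ^ e * (((2 ^ (c1 * (a + e)) : ℕ) : ℝ) + 1) := by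
  push_cast
  refine (succ_pow_le (E := c0 * e + k * a) (by positivity) ?_).trans ?_
  · rw [pow_add]
    refine mul_le_mul le_rfl ?_ (by positivity) (by positivity)
    exact_mod_cast B_pow_le k a
  rw [one_div_mul_eq_div, le_div_iff₀ (by positivity), ← pow_add]
  refine (pow_two_le ?_).trans (le_add_of_nonneg_right zero_le_one)
  subst hc1
  have : d' ≤ d' * (a + e) := Nat.le_mul_of_pos_right d' (by omega)
  nlinarith [Nat.zero_le (c0 * a * d'), Nat.zero_le (k * e * d'), Nat.zero_le a]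

lemma delete_le {k c1 cθ a e : ℕ} (hcθ : cθ = k * c1 + k + 2) (he : 1 ≤ e) :
    ((2 ^ (c1 * (a + e)) : ℕ) : ℝ) ^ k * k * (2 * (1 / (2 : ℝ) ^ (cθ * (a + e)))) ≤
      1 / (2 : ℝ) ^ e := by
  push_cast
  have hk2 : (k : ℝ) ≤ (2 : ℝ) ^ k := by exact_mod_cast Nat.lt_two_pow_self.le
  calc ((2 : ℝ) ^ (c1 * (a + e))) ^ k * k * (2 * (1 / (2 : ℝ) ^ (cθ * (a + e))))
      ≤ ((2 : ℝ) ^ (c1 * (a + e))) ^ k * (2 : ℝ) ^ k * (2 * (1 / (2 : ℝ) ^ (cθ * (a + e)))) := by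
        gcongr
    _ = (2 : ℝ) ^ (c1 * (a + e) * k + k + 1) * (1 / (2 : ℝ) ^ (cθ * (a + e))) := by
        rw [← pow_mul]; ring
    _ ≤ _ := by
        refine div_pow_two_le ?_
        subst hcθ
        have : k ≤ k * (a + e) := Nat.le_mul_of_pos_right k (by omega)
        nlinarith

lemma miss_le {k c1 cθ cq a e : ℕ} (hcq : cq = cθ + 2) (he : k * c1 + k + 2 ≤ e) :
    ((2 ^ (c1 * (a + e)) : ℕ) : ℝ) ^ k * k *
      (1 - 1 / (2 : ℝ) ^ (cθ * (a + e))) ^ 2 ^ (cq * (a + e)) ≤ 1 / 4 := by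
  set P := a + e with hP
  push_cast
  have hq : 2 ^ (cq * P) = 2 ^ (cθ * P) * 2 ^ (2 * P) := by
    rw [← pow_add, hcq, Nat.add_mul]
  have h1 : (1 - 1 / (2 : ℝ) ^ (cθ * P)) ^ 2 ^ (cq * P) ≤ 1 / (2 : ℝ) ^ 2 ^ (2 * P) := by
    rw [hq]; exact one_sub_pow_le _ _
  have h0 : (0 : ℝ) ≤ (1 - 1 / (2 : ℝ) ^ (cθ * P)) ^ 2 ^ (cq * P) := by
    refine pow_nonneg ?_ _
    rw [sub_nonneg, div_le_one (by positivity)]; exact one_le_pow₀ (by norm_num)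
  have hk2 : (k : ℝ) ≤ (2 : ℝ) ^ k := by exact_mod_cast Nat.lt_two_pow_self.le
  calc ((2 : ℝ) ^ (c1 * P)) ^ k * k * (1 - 1 / (2 : ℝ) ^ (cθ * P)) ^ 2 ^ (cq * P)
      ≤ ((2 : ℝ) ^ (c1 * P)) ^ k * (2 : ℝ) ^ k * (1 / (2 : ℝ) ^ 2 ^ (2 * P)) := by gcongr
    _ = (2 : ℝ) ^ (c1 * P * k + k) * (1 / (2 : ℝ) ^ 2 ^ (2 * P)) := by
        rw [← pow_mul, pow_add]
    _ ≤ 1 / (2 : ℝ) ^ 2 := by
        refine div_pow_two_le ?_
        have h3 := mul_le_two_pow (x := P) (c := k * c1 + k + 2) (by omega)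
        have : k ≤ k * P := Nat.le_mul_of_pos_right k (by omega)
        have : c1 * P * k = k * c1 * P := by ring
        have : 2 ≤ 2 * P := Nat.le_mul_of_pos_right 2 (by omega)
        rw [Nat.add_mul, Nat.add_mul] at h3
        omega
    _ = 1 / 4 := by norm_num

lemma delta_ok {k cS c1 cq c0 cθ cδ : ℕ}
    (hcδ : cδ = k * (cS + c1 + cq + c0 + 8) + 10 + 2 * k * (cθ + k))
    {P e Pa : ℕ} (he : 1 ≤ e) (heP : e ≤ P) (hPa : Pa ≤ P) :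
    (c0 * e + 1 + 3 * e) * k + (e + 2) ≤ cδ * P ∧
      (cS * P + (c1 * Pa + 1)) * k + (e + 3) ≤ cδ * P ∧
      (cS * P + cq * Pa) * k + 5 ≤ cδ * P ∧ (cθ + k) * P * (2 * k) ≤ cδ * P := by
  subst hcδ
  have a1 : c0 * e * k ≤ c0 * P * k := Nat.mul_le_mul_right _ (Nat.mul_le_mul_left _ heP)
  have a2 : c1 * Pa * k ≤ c1 * P * k := Nat.mul_le_mul_right _ (Nat.mul_le_mul_left _ hPa)
  have a3 : cq * Pa * k ≤ cq * P * k := Nat.mul_le_mul_right _ (Nat.mul_le_mul_left _ hPa)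
  have a4 : e * k ≤ P * k := Nat.mul_le_mul_right _ heP
  have a5 : k ≤ k * P := Nat.le_mul_of_pos_right k (by omega)
  have a6 : 1 ≤ P := by omega
  refine ⟨?_, ?_, ?_, ?_⟩ <;> nlinarith

lemma log_bound {c0 e : ℕ} (he : 1 ≤ e) :
    Real.log (((2 ^ (c0 * e) : ℕ) : ℝ) + 1) + 2 ≤ ((c0 + 3 : ℕ) : ℝ) * e := by
  push_cast
  have h1 : Real.log ((2 : ℝ) ^ (c0 * e) + 1) ≤ (c0 * e + 1 : ℕ) := by
    refine (Real.log_le_log (by positivity) (two_pow_succ_ge _)).trans ?_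
    rw [Real.log_pow]
    have : Real.log 2 ≤ 1 := by
      have := Real.log_le_sub_one_of_pos (show (0 : ℝ) < 2 by norm_num); linarith
    exact mul_le_of_le_one_right (Nat.cast_nonneg _) this
  push_cast at h1
  have : (1 : ℝ) ≤ e := by exact_mod_cast he
  nlinarith

theorem main_bound (k : ℕ) (hk : 1 ≤ k) (H : Fin k → Fin k → Bool) :
    ∃ C₁ cδ cm e₀ : ℕ, ∀ (n : ℕ) (A : Fin n → Fin n → Bool) (ε : ℝ) (e : ℕ),
      ε < 1 → e₀ ≤ e → 17 / (2 : ℝ) ^ e ≤ ε → IsFar H A ε →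
        (n : ℝ) ^ (2 * k) / (2 : ℝ) ^ (cδ * (depth C₁ e (cm * e * 2 ^ e) + e)) ≤ numCopies H A := by
  classical
  obtain ⟨d, hd⟩ := exists_shatter_bound k hk H
  obtain ⟨d', hd'⟩ := exists_shatter_bound k hk fun i j => H j i
  -- the exponents
  obtain ⟨c0, hc0⟩ : ∃ c : ℕ, c = 4 * d + 1 := ⟨_, rfl⟩
  obtain ⟨c1, hc1⟩ : ∃ c : ℕ, c = (k + c0 + 1) * d' + 1 := ⟨_, rfl⟩
  obtain ⟨cθ, hcθ⟩ : ∃ c : ℕ, c = k * c1 + k + 2 := ⟨_, rfl⟩
  obtain ⟨cq, hcq⟩ : ∃ c : ℕ, c = cθ + 2 := ⟨_, rfl⟩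
  obtain ⟨cD, hcD⟩ : ∃ c : ℕ, c = (cq + 1) * d + k + 5 := ⟨_, rfl⟩
  obtain ⟨C₁, hC₁⟩ : ∃ c : ℕ, c = k * (k + 1) * cD + 2 := ⟨_, rfl⟩
  obtain ⟨cL, hcL⟩ : ∃ c : ℕ, c = k + c0 + 1 := ⟨_, rfl⟩
  obtain ⟨cS, hcS⟩ : ∃ c : ℕ, c = cL + 2 := ⟨_, rfl⟩
  obtain ⟨cδ, hcδ⟩ : ∃ c : ℕ, c = k * (cS + c1 + cq + c0 + 8) + 10 + 2 * k * (cθ + k) := ⟨_, rfl⟩
  refine ⟨C₁, cδ, c0 + 3, k * c1 + c0 + 2 * k + 12, fun n A ε e hε1 he hε hfar => ?_⟩
  obtain ⟨m, hm⟩ : ∃ m : ℕ, m = (c0 + 3) * e * 2 ^ e := ⟨_, rfl⟩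
  rw [← hm]
  obtain ⟨Lv, hLv⟩ : ∃ L : ℕ, L = depth C₁ e m := ⟨_, rfl⟩
  rw [← hLv]
  by_contra hlt
  push Not at hlt
  have he1 : 1 ≤ e := by omega
  have hη : (0 : ℝ) < 1 / (2 : ℝ) ^ e := by positivity
  have hη1 : 1 / (2 : ℝ) ^ e ≤ (1 : ℝ) := by
    rw [div_le_one (by positivity)]; exact one_le_pow₀ (by norm_num)
  have hεη : 17 * (1 / (2 : ℝ) ^ e) ≤ ε := by rw [mul_one_div]; exact hε
  have hn : 0 < n := by
    rcases Nat.eq_zero_or_pos n with h | h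
    · subst h
      rw [Nat.cast_zero, zero_pow (by omega), zero_div] at hlt
      exact absurd hlt (not_lt.2 (Nat.cast_nonneg _))
    · exact h
  have hn' : (0 : ℝ) < n := by exact_mod_cast hn
  have hNd0 : 0 ≤ (numCopies H A : ℝ) / (n : ℝ) ^ (2 * k) := by positivity
  rw [lt_div_iff₀ (by positivity)] at hlt
  have hδ : (numCopies H A : ℝ) / (n : ℝ) ^ (2 * k) ≤ 1 / (2 : ℝ) ^ (cδ * (Lv + e)) := by
    rw [div_le_div_iff₀ (by positivity) (by positivity), one_mul]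
    exact hlt.le
  -- some copy exists, so `n` is large
  have hnbig : (2 : ℝ) ^ ((cθ + k) * (Lv + e)) ≤ n := by
    have hN1 : 1 ≤ numCopies H A := by
      by_contra h0
      have h0' : numCopies H A = 0 := by omega
      rw [numCopies, Nat.card_eq_fintype_card, Fintype.card_eq_zero_iff] at h0'
      have h := hfar A (fun r c h => h0'.false ⟨(r, c), h⟩)
      simp at h
      nlinarith [mul_pos (show 0 < ε by linarith) (pow_pos hn' 2)]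
    have h1 : (2 : ℝ) ^ (cδ * (Lv + e)) < (n : ℝ) ^ (2 * k) := by
      refine lt_of_le_of_lt (le_mul_of_one_le_left (by positivity) ?_) hlt
      exact_mod_cast hN1
    by_contra hc
    push Not at hc
    have h2 : (n : ℝ) ^ (2 * k) ≤ ((2 : ℝ) ^ ((cθ + k) * (Lv + e))) ^ (2 * k) :=
      pow_le_pow_left₀ hn'.le hc.le _
    rw [← pow_mul] at h2
    have h3 := (delta_ok hcδ (P := Lv + e) (Pa := e) he1 (Nat.le_add_left _ _)
      (Nat.le_add_left _ _)).2.2.2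
    exact absurd h1 (not_lt.2 (h2.trans (pow_two_le h3)))
  -- rows
  obtain ⟨Q, ctr, X, hXQ, hXcard, hctr, hclose, hheavy⟩ := exists_letters hn H A (hd n A)
    (2 ^ (3 * e)) (2 ^ (c0 * e)) (k + 1) Lv (Nat.succ_pos k) (1 / (2 : ℝ) ^ e)
    (1 / (2 : ℝ) ^ (cL * (Lv + e))) hη hη1 (by positivity)
    (rows_far (by omega)) (rows_types hc0 he1)
    ((copy_le (Ex := c0 * e + 1) (Ey := 3 * e) (c := e + 2) hδ hNd0 (by positivity) (by positivity)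
      (by push_cast; exact two_pow_succ_ge _) (by push_cast; exact le_rfl)
      (delta_ok hcδ (Pa := e) he1 (Nat.le_add_left _ _) (Nat.le_add_left _ _)).1).trans_eq
        (by rw [eta_eq]; norm_num))
    (light_le hcL)
  -- the window
  have hLn : (k + 1) ^ Lv ≤ n := by
    have h1 : ((k + 1 : ℕ) : ℝ) ^ Lv ≤ (n : ℝ) :=
      (B_pow_le k Lv).trans ((pow_two_le (Nat.mul_le_mul (Nat.le_add_left k cθ)
        (Nat.le_add_right Lv e))).trans hnbig)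
    exact_mod_cast h1
  have hmpos : 0 < m := by
    rw [hm]; exact Nat.mul_pos (Nat.mul_pos (by omega) (by omega)) (Nat.two_pow_pos e)
  have hC1 : 1 ≤ C₁ := by omega
  obtain ⟨i, him, hwin⟩ := exists_window (Nat.succ_pos k) hn X Q hmpos hXQ (depth C₁ e)
    (depth_mono hC1 e) rfl (hLv ▸ hLn)
  have hab : depth C₁ e i ≤ depth C₁ e (i + 1) := depth_mono hC1 e (Nat.le_succ i)
  have hbL : depth C₁ e (i + 1) ≤ Lv := hLv ▸ depth_mono hC1 e (Nat.succ_le_of_lt him)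
  have hb : depth C₁ e (i + 1) = C₁ * (depth C₁ e i + e) := rfl
  generalize depth C₁ e i = a at *
  generalize depth C₁ e (i + 1) = b at *
  have hPaP : a + e ≤ Lv + e := Nat.add_le_add_right (hab.trans hbL) e
  have hdel := delta_ok hcδ (P := Lv + e) (Pa := a + e) he1 (Nat.le_add_left _ _) hPaP
  have hloss : (n : ℝ) * (Real.log (((2 ^ (c0 * e) : ℕ) : ℝ) + 1) + 2) / m ≤
      1 / (2 : ℝ) ^ e * n := by
    have hcast : ((m : ℕ) : ℝ) = ((c0 + 3 : ℕ) : ℝ) * e * (2 : ℝ) ^ e := by rw [hm]; push_cast; rfl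
    rw [div_le_iff₀ (by exact_mod_cast hmpos), hcast]
    calc (n : ℝ) * (Real.log (((2 ^ (c0 * e) : ℕ) : ℝ) + 1) + 2)
        ≤ (n : ℝ) * (((c0 + 3 : ℕ) : ℝ) * e) := by
          exact mul_le_mul_of_nonneg_left (log_bound he1) hn'.le
      _ = _ := by field_simp
  have hθ₀1 : 1 / (2 : ℝ) ^ (cL * (Lv + e)) ≤ (1 : ℝ) := by
    rw [div_le_one (by positivity)]; exact one_le_pow₀ (by norm_num)
  obtain ⟨S, r, -, -, hlost, hmeet, hg1, hg2, hg3⟩ := exists_sample hn H A (hd n A) X Q hXQ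
    (B := k + 1) (by omega) hab ((k + 1) * (cD * (a + e))) (2 ^ (cS * (Lv + e)))
    (2 ^ (c1 * (a + e))) (2 ^ (cq * (a + e))) _ _ hη hθ₀1 hheavy (hwin.trans hloss)
    (cover_le hcS (by omega))
    ((copy_le (Ex := cS * (Lv + e)) (Ey := c1 * (a + e) + 1) (c := e + 3) hδ hNd0 (by positivity)
      (by positivity) (by push_cast; exact le_rfl) (by push_cast; exact two_pow_succ_ge _)
      hdel.2.1).trans_eq (by rw [eta_eq]; norm_num))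
    ((copy_le (Ex := cS * (Lv + e)) (Ey := cq * (a + e)) (c := 5) hδ hNd0 (by positivity)
      (by positivity) (by push_cast; exact le_rfl) (by push_cast; exact le_rfl)
      hdel.2.2.1).trans_eq (by norm_num))
    (bad_le hcD he1)
  refine not_far_of_window hn hk H A hη hεη hε1 hfar (fun S T h => hd' n _ T S h.swap) Q ctr X hXQ
    hXcard hctr hclose (B := k + 1) (a := a) (b := b) (L := Lv) (Nat.lt_succ_self k) hbL
    ?_ S r hlost hmeet hg1 hg2 hg3 (θ₁ := 1 / (2 : ℝ) ^ (cθ * (a + e))) (by positivity) ?_ ?_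
    (cols_types hc1 he1) (delete_le hcθ he1) (miss_le hcq (by omega))
  · have h2 : C₁ * (a + e) = k * ((k + 1) * (cD * (a + e))) + 2 * (a + e) := by rw [hC₁]; ring
    omega
  · rw [div_le_one (by positivity)]; exact one_le_pow₀ (by norm_num)
  · rw [one_div_mul_eq_div, le_div_iff₀ (by positivity), one_mul]
    exact (pow_two_le (Nat.mul_le_mul (Nat.le_add_right cθ k) hPaP)).trans hnbig

/-- Far from `H`-free implies doubly exponentially many copies in `1/ε`. -/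
theorem far_many_copies (k : ℕ) (hk : 1 ≤ k) (H : Fin k → Fin k → Bool) :
    ∃ C : ℝ, 0 < C ∧ ∀ (n : ℕ) (A : Fin n → Fin n → Bool) (ε : ℝ), 0 < ε → ε < 1 →
      IsFar H A ε →
        Real.exp (-Real.exp (C / ε ^ 2)) * (n : ℝ) ^ (2 * k) ≤ numCopies H A := by
  obtain ⟨C₁, cδ, cm, e₀, hmain⟩ := main_bound k hk H
  set c := 2 ^ e₀ * 34 with hc
  refine ⟨(cδ : ℝ) + c + (cm : ℝ) * c ^ 2 * ((C₁ : ℝ) + 1), by positivity,
    fun n A ε hε hε1 hfar => ?_⟩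
  obtain ⟨e', he', hmin⟩ : ∃ e', 17 / ε ≤ (2 : ℝ) ^ e' ∧ ∀ j < e', ¬ 17 / ε ≤ (2 : ℝ) ^ j := by
    have hex : ∃ e', 17 / ε ≤ (2 : ℝ) ^ e' := by
      obtain ⟨e', he'⟩ := pow_unbounded_of_one_lt (17 / ε) (by norm_num : (1 : ℝ) < 2)
      exact ⟨e', he'.le⟩
    classical
    exact ⟨Nat.find hex, Nat.find_spec hex, fun j hj => Nat.find_min hex hj⟩
  have hup : (2 : ℝ) ^ e' ≤ 34 / ε := by
    cases e' with
    | zero =>
      rw [pow_zero, le_div_iff₀ hε]; linarith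
    | succ j =>
      have := hmin j (Nat.lt_succ_self j)
      push Not at this
      rw [pow_succ, show (34 : ℝ) / ε = 17 / ε * 2 by ring]
      linarith
  set e := e₀ + e' with he
  have h17 : 17 / (2 : ℝ) ^ e ≤ ε := by
    rw [div_le_iff₀ hε] at he'
    rw [div_le_iff₀ (by positivity), he, pow_add]
    have : (1 : ℝ) ≤ (2 : ℝ) ^ e₀ := one_le_pow₀ (by norm_num)
    nlinarith [mul_nonneg (sub_nonneg.2 this) (show (0:ℝ) ≤ (2:ℝ) ^ e' * ε by positivity)]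
  refine le_trans ?_ (hmain n A ε e hε1 (Nat.le_add_right _ _) h17 hfar)
  rw [mul_comm, ← mul_one_div ((n : ℝ) ^ (2 * k))]
  gcongr
  rw [Real.exp_neg, one_div]
  gcongr
  set m := cm * e * 2 ^ e with hm
  set E := cδ * (depth C₁ e m + e) with hE
  have h2e : (2 : ℝ) ^ e ≤ (c : ℝ) / ε := by
    rw [he, pow_add, hc]; push_cast
    calc (2 : ℝ) ^ e₀ * (2 : ℝ) ^ e' ≤ (2 : ℝ) ^ e₀ * (34 / ε) := by gcongr
      _ = _ := by ring
  have hee : (e : ℝ) ≤ (2 : ℝ) ^ e := by exact_mod_cast Nat.lt_two_pow_self.le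
  have hstep1 : (2 : ℝ) ^ E ≤ Real.exp (E : ℝ) := by
    rw [← Real.exp_one_pow]
    gcongr
    have := Real.add_one_le_exp (1 : ℝ); linarith
  refine hstep1.trans (Real.exp_le_exp.2 ?_)
  have hstep2 : (E : ℝ) ≤ (cδ : ℝ) * (((C₁ : ℝ) + 1) ^ m * e) := by
    have h := Nat.mul_le_mul_left cδ (depth_le C₁ e m)
    rw [hE]
    exact_mod_cast h
  refine hstep2.trans ?_
  have h1 : (cδ : ℝ) ≤ Real.exp (cδ : ℝ) := by linarith [Real.add_one_le_exp (cδ : ℝ)]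
  have h2 : ((C₁ : ℝ) + 1) ^ m ≤ Real.exp ((C₁ : ℝ) + 1) ^ m := by
    gcongr; linarith [Real.add_one_le_exp ((C₁ : ℝ) + 1)]
  have h3 : (e : ℝ) ≤ Real.exp (e : ℝ) := by linarith [Real.add_one_le_exp (e : ℝ)]
  have hmR : (m : ℝ) ≤ (cm : ℝ) * (c : ℝ) ^ 2 / ε ^ 2 := by
    rw [hm]; push_cast
    calc (cm : ℝ) * e * (2 : ℝ) ^ e ≤ (cm : ℝ) * ((c : ℝ) / ε) * ((c : ℝ) / ε) := by
          gcongr; exact hee.trans h2e
      _ = _ := by ring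
  have hinv : (1 : ℝ) ≤ 1 / ε ^ 2 := by
    rw [le_div_iff₀ (by positivity)]; nlinarith
  calc (cδ : ℝ) * (((C₁ : ℝ) + 1) ^ m * e)
      ≤ Real.exp (cδ : ℝ) * (Real.exp ((C₁ : ℝ) + 1) ^ m * Real.exp (e : ℝ)) := by gcongr
    _ = Real.exp ((cδ : ℝ) + ((m : ℝ) * ((C₁ : ℝ) + 1) + e)) := by
        rw [← Real.exp_nat_mul ((C₁ : ℝ) + 1) m, ← Real.exp_add, ← Real.exp_add]
    _ ≤ _ := by
        refine Real.exp_le_exp.2 ?_
        rw [add_div, add_div]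
        have a1 : (cδ : ℝ) ≤ (cδ : ℝ) / ε ^ 2 := by
          rw [le_div_iff₀ (by positivity)]
          exact mul_le_of_le_one_right (Nat.cast_nonneg _) (by nlinarith)
        have a2 : (e : ℝ) ≤ (c : ℝ) / ε ^ 2 := by
          refine (hee.trans h2e).trans ?_
          gcongr
          nlinarith
        have a3 : (m : ℝ) * ((C₁ : ℝ) + 1) ≤ (cm : ℝ) * (c : ℝ) ^ 2 * ((C₁ : ℝ) + 1) / ε ^ 2 := by
          rw [mul_div_right_comm]; gcongr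
        linarith

end Vale.Agent.P037
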